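import Vale.Agent.P156.H490.TDg

/-! FE11 (two defects): `SpecTD` from the specifications of the other blocks. -/

open Matrix Finset

namespace Vale.Agent.P156.H490.TD

open Vale.Agent.P156.B Vale.Agent.P156.FE

noncomputable section

variable {n d : ℕ}

/-- typicality at the larger scale, if that scale is at most one -/
def LPe (d : ℕ) (E c₁ s : ℝ) (R : Matrix (Fin (d + 1) × Fin d) (Fin (d + 1) × Fin d) ℂ) : Prop :=
  s ≤ 1 → rhoM (mm d (zz E s)) R ≤ c₁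

lemma LPe_perm (E c₁ s : ℝ) (σ : Equiv.Perm (Fin (d + 1) × Fin d))
    (R : Matrix (Fin (d + 1) × Fin d) (Fin (d + 1) × Fin d) ℂ) :
    LPe d E c₁ s (R.submatrix σ σ) ↔ LPe d E c₁ s R := by
  simp only [LPe, rhoM_perm]

/-- growth bounds from the large scale event -/
theorem gb_of_LPe {a b c₁ Cg Cb X E η : ℝ}
    (hG : ∀ (n : ℕ) (ω : SimpleGraph (Fin n) × StarPos n d (d + 1)),
      ω ∈ ZZs n d (d + 1) → ∀ E ∈ Set.Icc a b, ∀ η H : ℝ, 0 < η → 1 ≤ H → H * η ≤ 1 →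
      FE.rho ω (zz E (H * η)) ≤ c₁ →
      (∀ p r, ‖leadMat ω (zz E η) p r‖ ≤ Cg * H) ∧
      (∀ x y, ‖starMat ω (zz E η) x y‖ ≤ Cg * H) ∧
      (∀ i j, ‖(centreMat ω (zz E η))⁻¹ i j‖ ≤ Cg * H) ∧
      (∀ j, ‖(starMat ω (zz E η) (j, none) (j, none))⁻¹‖ ≤ Cg * H) ∧
      (∀ j p r, ‖leadMat (sub1 ω j) (zz E η) p r‖ ≤ Cg * H) ∧
      (∀ j p, ‖(leadMat (sub1 ω j) (zz E η) p p)⁻¹‖ ≤ Cg * H) ∧
      (∀ j p, 1 ≤ Cg * H * (leadMat (sub1 ω j) (zz E η) p p).im))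
    (hCg : Cg ≤ Cb) (hCb : |a| + |b| + 1 + d ^ 2 ≤ Cb) (hE : E ∈ Set.Icc a b) (hη : 0 < η)
    (hη1 : η ≤ 1) (hX1 : 1 ≤ X) {ω : Om n d (d + 1)} (hω : ω ∈ ZZs n d (d + 1))
    (hL : LPe d E c₁ (X * η) (leadMat ω (zz E (X * η)))) : GB ω (zz E η) (Cb * X) := by
  have hX0 : 0 < X := by linarith
  have hE' : |E| ≤ |a| + |b| := by
    rw [abs_le]
    constructor
    · have := neg_abs_le a
      have := abs_nonneg b
      linarith [hE.1]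
    · have := le_abs_self b
      have := abs_nonneg a
      linarith [hE.2]
  by_cases h : X * η ≤ 1
  · obtain ⟨-, g2, g3, g4, -⟩ := hG n ω hω E hE η X hη hX1 h (hL h)
    have hle : Cg * X ≤ Cb * X := by gcongr
    exact ⟨fun x y => (g2 x y).trans hle, fun i j => (g3 i j).trans hle,
      fun j => (g4 j).trans hle⟩
  · rw [not_le] at h
    have hR : 1 / η ≤ X := by
      rw [div_le_iff₀ hη]
      exact h.le
    obtain ⟨g2, g3, g4⟩ := gb_of_large hω (E := E) hη hR hX1 hη1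
    have hle : (|E| + 1 + d ^ 2) * X ≤ Cb * X := by
      refine mul_le_mul_of_nonneg_right (le_trans ?_ hCb) hX0.le
      linarith
    exact ⟨fun x y => (g2 x y).trans hle, fun i j => (g3 i j).trans hle,
      fun j => (g4 j).trans hle⟩

/-- probability of an isolated defect, squared -/
theorem isol_le {c₂ A N : ℝ} {z : ℂ} (hc₂ : 0 < c₂)
    (hV : avg (regularGraphs n d) (fun G => VV d G z ^ 2) ≤ A / N ^ 2) :
    avg (regularGraphs n d) (fun G => avg (stars d G) (fun t => ind (DI c₂ z G t)) ^ 2) ≤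
      A / c₂ ^ 2 / N ^ 2 := by
  refine (avg_mono (Ψ := fun G => (1 / c₂ ^ 2) * VV d G z ^ 2) fun G _ => ?_).trans ?_
  · have h1 : avg (stars d G) (fun t => ind (DI c₂ z G t)) ≤ VV d G z / c₂ :=
      markov_ind (Φ := fun t => dev (one G t) z) hc₂ fun t _ => dev_nonneg _ _
    have h2 : 0 ≤ avg (stars d G) (fun t => ind (DI c₂ z G t)) :=
      avg_nonneg fun t _ => ind_nonneg _
    calc _ ≤ (VV d G z / c₂) ^ 2 := by gcongr
      _ = _ := by ring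
  · rw [avg_mul_left]
    calc _ ≤ 1 / c₂ ^ 2 * (A / N ^ 2) := by gcongr
      _ = _ := by ring

/-- final scalar step -/
theorem fin_step {n N X K p₀ CT Ck κ P Cbad D : ℝ} (hn : 0 < n) (hN0 : 0 < N) (hX0 : 0 < X)
    (hK0 : 0 < K) (hp₀0 : 0 ≤ p₀) (_hCT : 0 ≤ CT) (_hN1 : 1 ≤ N) (hXN : X ≤ N) (hNn : N ≤ n)
    (hNb : 4 * Cbad ≤ N) (hκ2 : κ ^ 2 ≤ Ck ^ 2 / (N * X)) (hκd : D * κ ≤ 1 / 4) (hP0 : 0 ≤ P)
    (key : P ≤ (Cbad / n + D * κ) * P + CT / (N * X) +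
      (K ^ 2 * (p₀ / N ^ 2) + K ^ 3 * (κ ^ 2 + p₀ / N ^ 2) + K ^ 4 * κ ^ 2)) :
    P ≤ 2 * (CT + (K ^ 2 * p₀ + K ^ 3 * (Ck ^ 2 + p₀) + K ^ 4 * Ck ^ 2)) * (1 / (N * X)) := by
  have hbad : Cbad / n ≤ 1 / 4 := by
    rw [div_le_iff₀ hn]
    linarith
  have h1 : (Cbad / n + D * κ) * P ≤ 1 / 2 * P := by
    apply mul_le_mul_of_nonneg_right _ hP0
    linarith
  have hp2 : p₀ / N ^ 2 ≤ p₀ / (N * X) := by
    apply div_le_div_of_nonneg_left hp₀0 (by positivity)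
    rw [pow_two]
    gcongr
  have h2 : K ^ 2 * (p₀ / N ^ 2) + K ^ 3 * (κ ^ 2 + p₀ / N ^ 2) + K ^ 4 * κ ^ 2 ≤
      (K ^ 2 * p₀ + K ^ 3 * (Ck ^ 2 + p₀) + K ^ 4 * Ck ^ 2) / (N * X) := by
    calc _ ≤ K ^ 2 * (p₀ / (N * X)) + K ^ 3 * (Ck ^ 2 / (N * X) + p₀ / (N * X)) +
        K ^ 4 * (Ck ^ 2 / (N * X)) := by gcongr
      _ = _ := by ring
  have h4 : P ≤ 2 * (CT / (N * X) +
      (K ^ 2 * p₀ + K ^ 3 * (Ck ^ 2 + p₀) + K ^ 4 * Ck ^ 2) / (N * X)) := by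
    linarith
  refine h4.trans (le_of_eq ?_)
  ring

/-- **FE11**: two defects. -/
theorem specTD {a b : ℝ} (hd : 3 ≤ d) (hM : SpecM d a b) (hGr : SpecGrow d a b)
    (hDec : SpecDec d) (hComp : SpecComp d a b) (hW : SpecWard d) (hFM : SpecFM d a b)
    (hSM : SpecSM d a b) : SpecTD d a b := by
  obtain ⟨c, hc, hc1, hMm, -, -⟩ := hM
  obtain ⟨Cc, hCc1, hCc⟩ := hComp 1
  obtain ⟨c₁, hc₁, Cg, hCg1, hG⟩ := hGr (d + 1)
  obtain ⟨CD, cD, hCD1, hDK⟩ := hDec (d + 1)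
  obtain ⟨CT, hCT, hT⟩ := prob_notTyp_le (K := d + 1) (d := d) (by omega) hComp hFM hc₁
  obtain ⟨A, L₁, hA, hL₁, hV⟩ := avg_VV_sq_le hSM
  have hdR : (3 : ℝ) ≤ d := by exact_mod_cast hd
  have hd0 : (0 : ℝ) < d := by linarith
  -- constants
  obtain ⟨err, herr⟩ : ∃ x : ℝ, x = c / (16 * d) := ⟨_, rfl⟩
  obtain ⟨e, he⟩ : ∃ x : ℝ, x = c / (8 * d) := ⟨_, rfl⟩
  obtain ⟨e₃, he₃⟩ : ∃ x : ℝ, x = c / 8 := ⟨_, rfl⟩
  have herr0 : 0 < err := by rw [herr]; positivity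
  have he0 : 0 < e := by rw [he]; positivity
  have he₃0 : 0 < e₃ := by rw [he₃]; positivity
  have herr1 : err ≤ c / 8 := by
    rw [herr]
    apply div_le_div_of_nonneg_left hc.le (by norm_num)
    linarith
  have herr2 : err ≤ e / 2 := by
    rw [herr, he]
    apply le_of_eq
    field_simp
    norm_num
  have he1 : 2 * d * e ≤ c / 4 := by
    rw [he]
    apply le_of_eq
    field_simp
    norm_num
  have hCc0 : 0 < Cc := by linarith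
  obtain ⟨c₂, hc₂⟩ : ∃ x : ℝ, x = e₃ ^ 2 / Cc := ⟨_, rfl⟩
  have hc₂0 : 0 < c₂ := by rw [hc₂]; positivity
  obtain ⟨Cb, hCb⟩ : ∃ x : ℝ, x = max Cg (|a| + |b| + 1 + d ^ 2) := ⟨_, rfl⟩
  have hCbg : Cg ≤ Cb := by rw [hCb]; exact le_max_left _ _
  have hCbg' : |a| + |b| + 1 + d ^ 2 ≤ Cb := by rw [hCb]; exact le_max_right _ _
  have hCb1 : 1 ≤ Cb := hCg1.trans hCbg
  obtain ⟨δ, hδ⟩ : ∃ x : ℝ, x = 1 / (4 * (1 + 2 * (cD : ℝ))) := ⟨_, rfl⟩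
  have hδ0 : 0 < δ := by rw [hδ]; positivity
  obtain ⟨Ck, hCk⟩ : ∃ x : ℝ, x = ((d : ℝ) + 1) ^ 2 * Cb * (CD * Cb ^ cD / err) ^ 2 := ⟨_, rfl⟩
  obtain ⟨Cbad, hCbad⟩ : ∃ x : ℝ, x = ((d + 1 : ℕ) : ℝ) ^ 2 * (d + 1) ^ 2 := ⟨_, rfl⟩
  obtain ⟨p₀, hp₀⟩ : ∃ x : ℝ, x = A / c₂ ^ 2 := ⟨_, rfl⟩
  have hp₀0 : 0 ≤ p₀ := by rw [hp₀]; positivity
  obtain ⟨K, hK⟩ : ∃ x : ℝ, x = ((d + 1 : ℕ) : ℝ) := ⟨_, rfl⟩
  have hK0 : 0 < K := by rw [hK]; positivity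
  refine ⟨5 / c, 2 * (CT + (K ^ 2 * p₀ + K ^ 3 * (Ck ^ 2 + p₀) + K ^ 4 * Ck ^ 2)),
    max (max 1 L₁) (max (4 * Cbad) ((4 * d * Ck) ^ 2)), δ, hδ0,
    (le_max_left _ _).trans (le_max_left _ _), fun n hn E hE η hη hη1 hL => ?_⟩
  have hn0 : 0 < n := by have := hn.1; omega
  have hnR : (0 : ℝ) < n := by exact_mod_cast hn0
  have hNN : (n : ℝ) * η ≤ n := mul_le_of_le_one_right hnR.le hη1
  have hT' := hT n hn E hE
  have hV' := hV n hn E hE η hη hη1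
  have hQ' := fun {τ M : ℝ} (hτ : 0 < τ) (G : SimpleGraph (Fin n)) (hG : G ∈ regularGraphs n d)
    (s : St n d) (hs : DL M (zz E η) G s) => coupling_le hW hG hn0 E hη hτ hs
  have hXN : ∀ X : ℝ, (n : ℝ) * (X * η) = n * η * X := fun X => by ring
  generalize (n : ℝ) * η = N at hL hNN hV' hXN hQ' ⊢
  have hN1 : 1 ≤ N := ((le_max_left _ _).trans (le_max_left _ _)).trans hL
  have hNL : L₁ ≤ N := ((le_max_right _ _).trans (le_max_left _ _)).trans hL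
  have hNb : 4 * Cbad ≤ N := ((le_max_left _ _).trans (le_max_right _ _)).trans hL
  have hNk : (4 * d * Ck) ^ 2 ≤ N := ((le_max_right _ _).trans (le_max_right _ _)).trans hL
  have hN0 : 0 < N := by linarith
  obtain ⟨hX1, hXN', hsc⟩ := scal hN1 hCb1 hCD1 herr0 hd0 hδ hCk hNk
  have hNX : N ^ (-(1 + δ)) = 1 / (N * N ^ δ) := by
    rw [Real.rpow_neg hN0.le, Real.rpow_add hN0, Real.rpow_one, one_div]
  rw [hNX]
  generalize N ^ δ = X at hX1 hXN' hsc ⊢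
  have hX0 : 0 < X := by linarith
  -- the parameters
  obtain ⟨M, hMd⟩ : ∃ x : ℝ, x = Cb * X := ⟨_, rfl⟩
  have hM1 : 1 ≤ M := by
    rw [hMd]
    exact one_le_mul_of_one_le_of_one_le hCb1 hX1
  have hM0 : 0 < M := by linarith
  obtain ⟨τ, hτ⟩ : ∃ x : ℝ, x = err / (CD * M ^ cD) := ⟨_, rfl⟩
  have hτ0 : 0 < τ := by rw [hτ]; positivity
  have hτe : CD * M ^ cD * τ = err := by
    rw [hτ]
    field_simp
  obtain ⟨κ, hκ⟩ : ∃ x : ℝ, x = ((d : ℝ) + 1) ^ 2 * M / (N * τ ^ 2) := ⟨_, rfl⟩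
  obtain ⟨hκ0, hκ2, hκd⟩ := hsc M τ κ hMd hτ hκ
  have hGB : ∀ ω ∈ ZZs n d (d + 1), LPe d E c₁ (X * η) (leadMat ω (zz E (X * η))) →
      GB ω (zz E η) M := by
    intro ω hω hL
    rw [hMd]
    exact gb_of_LPe hG hCbg hCbg' hE hη hη1 hX1 hω hL
  have hDec' : ∀ ω ∈ ZZs n d (d + 1), GB ω (zz E η) M → ∀ k : Fin (d + 1),
      (∀ x y, ∀ j ≠ k, ‖starMat ω (zz E η) (k, x) (j, y)‖ ≤ τ) →
      (∀ p r : Fin d, ‖leadMat ω (zz E η) (k, p) (k, r) -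
        leadMat (sub1 ω k) (zz E η) (0, p) (0, r)‖ ≤ err) ∧
      (∀ p : Fin d, ∀ j ≠ k, ∀ r : Fin d, ‖leadMat ω (zz E η) (k, p) (j, r)‖ ≤ err) := by
    intro ω hω hg k hdec
    have := hDK n ω hω (zz E η) (by rw [zz_im]; exact hη) M τ hM1 hτ0.le hg.1 hg.2.1 k (hg.2.2 k)
      hdec
    rw [hτe] at this
    exact this
  have hrho : ∀ ω : Om n d (d + 1), ω ∈ WW n d (d + 1) → ∀ k : Fin (d + 1),
      ¬ DI c₂ (zz E η) ω.1 (st ω k) → FE.rho (sub1 ω k) (zz E η) ≤ e₃ ^ 2 := by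
    intro ω hω k h
    have h1 : dev (sub1 ω k) (zz E η) ≤ c₂ := not_lt.1 h
    have h2 := (hCc n (sub1 ω k) (sub1_mem hω k) E hE η hη hη1).1
    calc FE.rho (sub1 ω k) (zz E η) ≤ Cc * dev (sub1 ω k) (zz E η) := h2
      _ ≤ Cc * c₂ := by gcongr
      _ = e₃ ^ 2 := by rw [hc₂]; field_simp
  have hQ : ∀ G ∈ regularGraphs n d, ∀ s ∈ stars d G, DL M (zz E η) G s →
      avg (stars d G) (fun t => ind (DQ τ (zz E η) G s t)) ≤ κ := by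
    intro G hG s _ hs
    rw [hκ]
    exact hQ' hτ0 G hG s hs
  have hI := isol_le hc₂0 (hV' hNL)
  rw [← hp₀] at hI
  have hTT : avg (WW n d (d + 1)) (fun ω => ind (ω ∈ ZZs n d (d + 1) ∧
      ¬ LPe d E c₁ (X * η) (leadMat ω (zz E (X * η))))) ≤ CT / (N * X) := by
    by_cases h : X * η ≤ 1
    · have h1 := hT' (X * η) (by positivity) h (by
        rw [hXN]
        exact one_le_mul_of_one_le_of_one_le hN1 hX1)
      rw [hXN] at h1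
      refine le_trans (avg_mono fun ω _ => ind_mono ?_) h1
      rintro ⟨h2, h3⟩
      refine ⟨h2, fun h4 => h3 fun _ => h4⟩
    · have h1 : ∀ ω : Om n d (d + 1), ind (ω ∈ ZZs n d (d + 1) ∧
          ¬ LPe d E c₁ (X * η) (leadMat ω (zz E (X * η)))) = 0 :=
        fun ω => ind_false fun h' => h'.2 fun h'' => absurd h'' h
      simp only [h1]
      exact (avg_le_of_le le_rfl fun _ _ => le_rfl).trans (by positivity)
  have key := prob_step (n := n) hd hn0 (E := E) hη hc he0.le (e := e) (err := err) (e₃ := e₃)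
    (τ := τ) (M := M) (C₁ := 5 / c) (κ := κ) (p := p₀ / N ^ 2) (T₁ := CT / (N * X)) (c₂ := c₂)
    (z' := zz E (X * η)) (LP := LPe d E c₁ (X * η)) he1 herr1 herr2
    (div_lt_div_of_pos_right (by norm_num) hc)
    hτ0.le hκ0.le (hMm E hE η hη hη1).1 he₃0.le (by rw [he₃]; linarith) (by rw [he₃])
    (fun σ R => LPe_perm E c₁ _ σ R) hGB hDec' hrho hQ hI hTT
  have hP0 : 0 ≤ prob (WW n d 1) (fun ω => 5 / c ≤
    ‖resD (adj ω.1) ∅ (zz E η) (ω.2.1 0) (ω.2.1 0)‖) := prob_nonneg _ _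
  rw [← hCbad, ← hK] at key
  generalize prob (WW n d 1) (fun ω => 5 / c ≤
    ‖resD (adj ω.1) ∅ (zz E η) (ω.2.1 0) (ω.2.1 0)‖) = P at key hP0 ⊢
  exact fin_step hnR hN0 hX0 hK0 hp₀0 hCT hN1 hXN' hNN hNb hκ2 hκd hP0 key

end

end Vale.Agent.P156.H490.TD
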