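import Vale.Agent.P156.H490.Spectral

/-! Block E, graph instance (I3): deletion formula and Schur complement for `cutMat`. -/

open MeasureTheory Filter Topology Matrix Finset

namespace Vale.Agent.P156.H490

noncomputable section

section general

variable {V κ : Type*} [Fintype V] [DecidableEq V] [Fintype κ] [DecidableEq κ]

/-- the action of the cut matrix on a vector which vanishes on `D`, at a point outside `D` -/
theorem cutMat_mulVec_of_notMem (A : Matrix V V ℝ) (D : Finset V) (z : ℂ) {y : V → ℂ}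
    (hy : ∀ v ∈ D, y v = 0) {v : V} (hv : v ∉ D) :
    (cutMat A D z *ᵥ y) v = (cutMat A ∅ z *ᵥ y) v := by
  simp only [Matrix.mulVec, dotProduct]
  refine Finset.sum_congr rfl fun w _ => ?_
  by_cases hw : w ∈ D
  · rw [hy w hw, mul_zero, mul_zero]
  · simp [cutMat, hv, hw]

theorem cutMat_mulVec_of_mem (A : Matrix V V ℝ) (D : Finset V) (z : ℂ) (y : V → ℂ)
    {v : V} (hv : v ∈ D) :
    (cutMat A D z *ᵥ y) v = y v := by
  simp [Matrix.mulVec, dotProduct, cutMat, hv]

theorem inv_mulVec_eq {ι : Type*} [Fintype ι] [DecidableEq ι] {M : Matrix ι ι ℂ} (hM : IsUnit M.det)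
    {x y : ι → ℂ} (h : M *ᵥ x = y) : x = M⁻¹ *ᵥ y := by
  rw [← h, Matrix.mulVec_mulVec, Matrix.nonsing_inv_mul _ hM, Matrix.one_mulVec]

/-- the block of the resolvent at the deleted vertices is invertible -/
theorem isUnit_sub {A : Matrix V V ℝ} {z : ℂ} {x : κ → V} (hx : Function.Injective x)
    (h0 : IsUnit (cutMat A ∅ z).det) (hD : IsUnit (cutMat A (univ.image x) z).det) :
    IsUnit ((resD A ∅ z).submatrix x x).det := by
  set G := resD A ∅ z with hG
  rw [isUnit_iff_ne_zero]
  intro hdet
  obtain ⟨c, hc0, hc⟩ := Matrix.exists_mulVec_eq_zero_iff.2 hdet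
  -- `p` is the extension of `c` by zero
  set p : V → ℂ := fun v => ∑ j, if v = x j then c j else 0 with hp
  set y : V → ℂ := G *ᵥ p with hy
  have hyx : ∀ v ∈ univ.image x, y v = 0 := by
    intro v hv
    obtain ⟨i, -, rfl⟩ := Finset.mem_image.1 hv
    have h1 := congrFun hc i
    simp only [Matrix.mulVec, dotProduct, Matrix.submatrix_apply, Pi.zero_apply] at h1
    simp only [hy, hp, Matrix.mulVec, dotProduct]
    refine Eq.trans ?_ h1
    simp only [Finset.mul_sum]
    rw [Finset.sum_comm]
    refine Finset.sum_congr rfl fun j _ => ?_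
    simp
  have hMy : cutMat A ∅ z *ᵥ y = p := by
    rw [hy, Matrix.mulVec_mulVec, hG, resD, Matrix.mul_nonsing_inv _ h0, Matrix.one_mulVec]
  have hDy : cutMat A (univ.image x) z *ᵥ y = 0 := by
    funext v
    by_cases hv : v ∈ univ.image x
    · rw [cutMat_mulVec_of_mem _ _ _ _ hv, hyx v hv]; rfl
    · rw [cutMat_mulVec_of_notMem _ _ _ hyx hv, hMy]
      simp only [hp, Pi.zero_apply]
      refine Finset.sum_eq_zero fun j _ => ?_
      rw [if_neg]
      rintro rfl
      exact hv (Finset.mem_image_of_mem _ (Finset.mem_univ _))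
  have hy0 : y = 0 := by
    rw [inv_mulVec_eq hD hDy, Matrix.mulVec_zero]
  have hp0 : p = 0 := by rw [← hMy, hy0, Matrix.mulVec_zero]
  apply hc0
  funext i
  have h2 := congrFun hp0 (x i)
  simp only [hp, Pi.zero_apply] at h2
  rw [Finset.sum_eq_single i] at h2
  · simpa using h2
  · intro j _ hji
    rw [if_neg]
    intro h
    exact hji (hx h).symm
  · simp

/-- deletion formula -/
theorem resD_delete {A : Matrix V V ℝ} {z : ℂ} {x : κ → V} (hx : Function.Injective x)
    (h0 : IsUnit (cutMat A ∅ z).det) (hD : IsUnit (cutMat A (univ.image x) z).det)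
    {a b : V} (hb : b ∉ univ.image x) :
    resD A (univ.image x) z a b = resD A ∅ z a b -
      ∑ j, ∑ k, resD A ∅ z a (x j) * (((resD A ∅ z).submatrix x x)⁻¹ j k * resD A ∅ z (x k) b) := by
  set G := resD A ∅ z with hG
  set Q := G.submatrix x x with hQ
  have hQu : IsUnit Q.det := isUnit_sub hx h0 hD
  -- the candidate column
  set c : κ → ℂ := Q⁻¹ *ᵥ (fun k => G (x k) b) with hc
  set y : V → ℂ := fun v => G v b - ∑ j, G v (x j) * c j with hy
  have hQc : ∀ i, ∑ j, G (x i) (x j) * c j = G (x i) b := by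
    intro i
    have h1 : Q *ᵥ c = fun k => G (x k) b := by
      rw [hc, Matrix.mulVec_mulVec, Matrix.mul_nonsing_inv _ hQu, Matrix.one_mulVec]
    exact congrFun h1 i
  have hyx : ∀ v ∈ univ.image x, y v = 0 := by
    intro v hv
    obtain ⟨i, -, rfl⟩ := Finset.mem_image.1 hv
    simp only [hy]
    rw [hQc i, sub_self]
  have hMG : ∀ v w, (cutMat A ∅ z *ᵥ (fun u => G u w)) v = if v = w then 1 else 0 := by
    intro v w
    have h1 : cutMat A ∅ z * G = 1 := by rw [hG, resD, Matrix.mul_nonsing_inv _ h0]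
    have h2 := congrFun (congrFun h1 v) w
    rw [Matrix.mul_apply, Matrix.one_apply] at h2
    exact h2
  have hMy : ∀ v ∉ univ.image x, (cutMat A ∅ z *ᵥ y) v = if v = b then 1 else 0 := by
    intro v hv
    have h1 : y = (fun u => G u b) - ∑ j, (c j) • (fun u => G u (x j)) := by
      funext u
      simp only [hy, Pi.sub_apply, Finset.sum_apply, Pi.smul_apply, smul_eq_mul]
      congr 1
      exact Finset.sum_congr rfl fun j _ => mul_comm _ _
    rw [h1, Matrix.mulVec_sub, Pi.sub_apply, hMG v b, Matrix.mulVec_sum, Finset.sum_apply]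
    rw [Finset.sum_eq_zero, sub_zero]
    intro j _
    rw [Matrix.mulVec_smul, Pi.smul_apply, hMG v (x j), if_neg, smul_zero]
    rintro rfl
    exact hv (Finset.mem_image_of_mem _ (Finset.mem_univ _))
  have hDy : cutMat A (univ.image x) z *ᵥ y = Pi.single b 1 := by
    funext v
    by_cases hv : v ∈ univ.image x
    · rw [cutMat_mulVec_of_mem _ _ _ _ hv, hyx v hv, Pi.single_apply, if_neg]
      rintro rfl
      exact hb hv
    · rw [cutMat_mulVec_of_notMem _ _ _ hyx hv, hMy v hv, Pi.single_apply]
  have h3 := congrFun (inv_mulVec_eq hD hDy) a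
  have h4 : ((cutMat A (univ.image x) z)⁻¹ *ᵥ Pi.single b 1) a = resD A (univ.image x) z a b := by
    rw [Matrix.mulVec_single_one]
    rfl
  rw [h4] at h3
  rw [← h3]
  simp only [hy, hc, Matrix.mulVec, dotProduct]
  congr 1
  refine Finset.sum_congr rfl fun j _ => ?_
  rw [Finset.mul_sum]

/-- Schur complement: the inverse of the block at non adjacent deleted vertices -/
theorem schur_inv {A : Matrix V V ℝ} {z : ℂ} {x : κ → V} (hx : Function.Injective x)
    (hA : ∀ i j, A (x i) (x j) = 0)
    (h0 : IsUnit (cutMat A ∅ z).det) (hD : IsUnit (cutMat A (univ.image x) z).det) (i j : κ) :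
    (((resD A ∅ z).submatrix x x)⁻¹) i j =
      -((if i = j then z else 0) + ∑ v, ∑ w, (A (x i) v : ℂ) *
        (resD A (univ.image x) z v w * (A w (x j) : ℂ))) := by
  set G := resD A ∅ z with hG
  set Q := G.submatrix x x with hQ
  set R := resD A (univ.image x) z with hR
  set S : Matrix κ κ ℂ := fun i j => -((if i = j then z else 0) + ∑ v, ∑ w, (A (x i) v : ℂ) *
        (R v w * (A w (x j) : ℂ))) with hS
  have hMG : ∀ v w, (cutMat A ∅ z *ᵥ (fun u => G u w)) v = if v = w then 1 else 0 := by
    intro v w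
    have h1 : cutMat A ∅ z * G = 1 := by rw [hG, resD, Matrix.mul_nonsing_inv _ h0]
    have h2 := congrFun (congrFun h1 v) w
    rw [Matrix.mul_apply, Matrix.one_apply] at h2
    exact h2
  have hexp : ∀ v (y : V → ℂ), (cutMat A ∅ z *ᵥ y) v = (∑ u, (A v u : ℂ) * y u) - z * y v := by
    intro v y
    simp [Matrix.mulVec, dotProduct, cutMat, sub_mul, Finset.sum_sub_distrib]
  -- the column of `G` at `x j`, restricted to the complement
  have hcol : ∀ j, (fun v => if v ∈ univ.image x then 0 else G v (x j)) =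
      R *ᵥ (fun w => if w ∈ univ.image x then 0 else -∑ k, (A w (x k) : ℂ) * G (x k) (x j)) := by
    intro j
    apply inv_mulVec_eq hD
    funext v
    by_cases hv : v ∈ univ.image x
    · rw [cutMat_mulVec_of_mem _ _ _ _ hv]
      simp [hv]
    · rw [cutMat_mulVec_of_notMem _ _ _ (fun w hw => by simp only [hw, if_true]) hv, hexp]
      simp only [hv, if_false]
      have h5 := hMG v (x j)
      rw [hexp, if_neg] at h5
      · have h6 : ∑ u, (A v u : ℂ) * G u (x j) =
            ∑ u, (A v u : ℂ) * (if u ∈ univ.image x then 0 else G u (x j)) +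
            ∑ k, (A v (x k) : ℂ) * G (x k) (x j) := by
          have h7 : ∑ k, (A v (x k) : ℂ) * G (x k) (x j) =
              ∑ u, (A v u : ℂ) * (if u ∈ univ.image x then G u (x j) else 0) := by
            rw [← Finset.sum_image (s := univ) (g := x)
              (f := fun u => (A v u : ℂ) * G u (x j)) (fun a _ b _ h => hx h)]
            simp only [mul_ite, mul_zero]
            rw [← Finset.sum_filter]
            refine Finset.sum_congr ?_ fun _ _ => rfl
            ext u
            simp
          rw [h7, ← Finset.sum_add_distrib]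
          refine Finset.sum_congr rfl fun u _ => ?_
          split_ifs <;> ring
        rw [h6] at h5
        linear_combination h5
      · rintro rfl
        exact hv (Finset.mem_image_of_mem _ (Finset.mem_univ _))
  have hSQ : S * Q = 1 := by
    ext i j
    rw [Matrix.mul_apply, Matrix.one_apply]
    have h8 := hMG (x i) (x j)
    rw [hexp] at h8
    have h9 : ∑ u, (A (x i) u : ℂ) * G u (x j) =
        ∑ u, (A (x i) u : ℂ) * (if u ∈ univ.image x then 0 else G u (x j)) := by
      refine Finset.sum_congr rfl fun u _ => ?_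
      split_ifs with hu
      · obtain ⟨k, -, rfl⟩ := Finset.mem_image.1 hu
        simp [hA i k]
      · rfl
    have h10 : ∀ u, (if u ∈ univ.image x then 0 else G u (x j)) =
        -∑ k, (∑ w, R u w * (A w (x k) : ℂ)) * G (x k) (x j) := by
      intro u
      refine (congrFun (hcol j) u).trans ?_
      simp only [Matrix.mulVec, dotProduct]
      have h12 : ∀ w, R u w * (if w ∈ univ.image x then 0
          else -∑ k, (A w (x k) : ℂ) * G (x k) (x j)) =
          -∑ k, R u w * (A w (x k) : ℂ) * G (x k) (x j) := by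
        intro w
        split_ifs with hw
        · obtain ⟨l, -, rfl⟩ := Finset.mem_image.1 hw
          simp [hA l]
        · rw [mul_neg, Finset.mul_sum]
          congr 1
          exact Finset.sum_congr rfl fun k _ => by ring
      simp only [h12]
      rw [Finset.sum_neg_distrib]
      congr 1
      rw [Finset.sum_comm]
      refine Finset.sum_congr rfl fun k _ => ?_
      rw [Finset.sum_mul]
    rw [h9] at h8
    simp only [h10] at h8
    have h13 : ∀ k, S i k * Q k j = -((if i = k then z else 0) * G (x k) (x j)) +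
        ∑ u, (A (x i) u : ℂ) * -((∑ w, R u w * (A w (x k) : ℂ)) * G (x k) (x j)) := by
      intro k
      simp only [hS, hQ, Matrix.submatrix_apply]
      rw [neg_mul, add_mul, neg_add, Finset.sum_mul]
      congr 1
      rw [← Finset.sum_neg_distrib]
      refine Finset.sum_congr rfl fun u _ => ?_
      rw [← Finset.mul_sum]
      ring
    simp only [h13, Finset.sum_add_distrib, Finset.sum_neg_distrib, ite_mul, zero_mul,
      Finset.sum_ite_eq, Finset.mem_univ, if_true]
    have h14 : ∑ k, ∑ u, (A (x i) u : ℂ) * -((∑ w, R u w * (A w (x k) : ℂ)) * G (x k) (x j)) =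
        ∑ u, (A (x i) u : ℂ) * -∑ k, (∑ w, R u w * (A w (x k) : ℂ)) * G (x k) (x j) := by
      rw [Finset.sum_comm]
      refine Finset.sum_congr rfl fun u _ => ?_
      rw [← Finset.sum_neg_distrib, Finset.mul_sum]
    rw [h14]
    have h15 : (if x i = x j then (1 : ℂ) else 0) = if i = j then 1 else 0 := by
      by_cases hij : i = j
      · simp [hij]
      · rw [if_neg hij, if_neg (fun h => hij (hx h))]
    rw [h15] at h8
    linear_combination h8
  have := Matrix.inv_eq_left_inv hSQ
  rw [this]

end general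

/-! ### Star patterns -/

variable {n d K : ℕ}

open Classical in
theorem mem_WW {ω : SimpleGraph (Fin n) × StarPos n d K} :
    ω ∈ WW n d K ↔ ω.1 ∈ regularGraphs n d ∧ ∀ j, IsStar ω.1 (ω.2.1 j) (ω.2.2 j) := by
  simp [WW]

open Classical in
theorem mem_ZZs {ω : SimpleGraph (Fin n) × StarPos n d K} :
    ω ∈ ZZs n d K ↔ ω ∈ WW n d K ∧ Function.Injective ω.2.1 ∧
      Function.Injective (fun p : Fin K × Fin d => ω.2.2 p.1 p.2) ∧
      ∀ j k i, ω.2.2 j k ≠ ω.2.1 i := by
  simp [ZZs]

/-- row of the adjacency matrix at the centre of a star -/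
theorem adj_star {G : SimpleGraph (Fin n)} {v : Fin n} {l : Fin d → Fin n} (h : IsStar G v l)
    (w : Fin n) : adj G v w = ∑ k, if l k = w then 1 else 0 := by
  classical
  unfold adj
  rw [SimpleGraph.adjMatrix_apply]
  by_cases hw : G.Adj v w
  · obtain ⟨k, hk⟩ := (h.2 w).1 hw
    rw [if_pos hw, Finset.sum_eq_single k]
    · simp [hk]
    · intro j _ hj
      rw [if_neg]
      intro hjw
      exact hj (h.1 (hjw.trans hk.symm))
    · simp
  · rw [if_neg hw, Finset.sum_eq_zero]
    intro k _
    rw [if_neg]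
    intro hk
    exact hw ((h.2 w).2 ⟨k, hk⟩)

theorem adj_symm (G : SimpleGraph (Fin n)) (v w : Fin n) : adj G v w = adj G w v := by
  classical
  unfold adj
  rw [SimpleGraph.adjMatrix_apply, SimpleGraph.adjMatrix_apply]
  simp only [SimpleGraph.adj_comm]

theorem lead_notMem {ω : SimpleGraph (Fin n) × StarPos n d K} (hω : ω ∈ ZZs n d K)
    (p : Fin K × Fin d) : lead ω p ∉ centres ω := by
  intro h
  obtain ⟨i, -, hi⟩ := Finset.mem_image.1 h
  exact (mem_ZZs.1 hω).2.2.2 p.1 p.2 i hi.symm

theorem adj_centres {ω : SimpleGraph (Fin n) × StarPos n d K} (hω : ω ∈ ZZs n d K)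
    (i j : Fin K) : adj ω.1 (ω.2.1 i) (ω.2.1 j) = 0 := by
  have h := mem_ZZs.1 hω
  rw [adj_star ((mem_WW.1 h.1).2 i), Finset.sum_eq_zero]
  intro k _
  rw [if_neg (h.2.2.2 i k j)]

/-- the deletion formula for the lead matrix -/
theorem leadMat_eq {ω : SimpleGraph (Fin n) × StarPos n d K} (hω : ω ∈ ZZs n d K) {z : ℂ}
    (h0 : IsUnit (cutMat (adj ω.1) ∅ z).det) (hD : IsUnit (cutMat (adj ω.1) (centres ω) z).det)
    (p q : Fin K × Fin d) :
    leadMat ω z p q = starMat ω z (p.1, some p.2) (q.1, some q.2) -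
      ∑ j, ∑ k, starMat ω z (p.1, some p.2) (j, none) *
        ((centreMat ω z)⁻¹ j k * starMat ω z (k, none) (q.1, some q.2)) :=
  resD_delete (a := lead ω p) (b := lead ω q) (mem_ZZs.1 hω).2.1 h0 hD (lead_notMem hω q)

theorem isUnit_centreMat {ω : SimpleGraph (Fin n) × StarPos n d K} (hω : ω ∈ ZZs n d K) {z : ℂ}
    (h0 : IsUnit (cutMat (adj ω.1) ∅ z).det) (hD : IsUnit (cutMat (adj ω.1) (centres ω) z).det) :
    IsUnit (centreMat ω z).det :=
  isUnit_sub (mem_ZZs.1 hω).2.1 h0 hD

/-- the Schur complement formula for the centre matrix -/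
theorem centreMat_inv {ω : SimpleGraph (Fin n) × StarPos n d K} (hω : ω ∈ ZZs n d K) {z : ℂ}
    (h0 : IsUnit (cutMat (adj ω.1) ∅ z).det) (hD : IsUnit (cutMat (adj ω.1) (centres ω) z).det)
    (i j : Fin K) :
    (centreMat ω z)⁻¹ i j =
      -((if i = j then z else 0) + ∑ k : Fin d, ∑ k' : Fin d, leadMat ω z (i, k) (j, k')) := by
  have h := schur_inv (mem_ZZs.1 hω).2.1 (adj_centres hω) h0 hD i j
  have hst := (mem_WW.1 (mem_ZZs.1 hω).1).2
  have h1 : centreMat ω z = (resD (adj ω.1) ∅ z).submatrix ω.2.1 ω.2.1 := rfl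
  rw [h1, h]
  congr 2
  have h2 : ∀ v w, (adj ω.1 (ω.2.1 i) v : ℂ) *
      (resD (adj ω.1) (univ.image ω.2.1) z v w * (adj ω.1 w (ω.2.1 j) : ℂ)) =
      ∑ k : Fin d, ∑ k' : Fin d, if ω.2.2 i k = v then (if ω.2.2 j k' = w then
        resD (adj ω.1) (univ.image ω.2.1) z v w else 0) else 0 := by
    intro v w
    rw [adj_symm ω.1 w, adj_star (hst i), adj_star (hst j)]
    push_cast
    rw [Finset.sum_mul]
    refine Finset.sum_congr rfl fun k _ => ?_
    rw [Finset.mul_sum, Finset.mul_sum]
    refine Finset.sum_congr rfl fun k' _ => ?_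
    split_ifs <;> simp
  simp only [h2]
  have h3 : ∀ v, ∑ w, ∑ k : Fin d, ∑ k' : Fin d, (if ω.2.2 i k = v then (if ω.2.2 j k' = w then
        resD (adj ω.1) (univ.image ω.2.1) z v w else 0) else 0) =
      ∑ k : Fin d, ∑ k' : Fin d, if ω.2.2 i k = v then
        resD (adj ω.1) (univ.image ω.2.1) z v (ω.2.2 j k') else 0 := by
    intro v
    rw [Finset.sum_comm]
    refine Finset.sum_congr rfl fun k _ => ?_
    rw [Finset.sum_comm]
    refine Finset.sum_congr rfl fun k' _ => ?_
    split_ifs
    · simp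
    · simp
  simp only [h3]
  rw [Finset.sum_comm]
  refine Finset.sum_congr rfl fun k _ => ?_
  rw [Finset.sum_comm]
  refine Finset.sum_congr rfl fun k' _ => ?_
  simp only [Finset.sum_ite_eq, Finset.mem_univ, if_true]
  rfl

end

end Vale.Agent.P156.H490
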