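import Vale.Agent.P156.R2.Spec

/-! Elementary API for `avg` and `prob`. -/

open MeasureTheory Filter Topology Matrix Finset

namespace Vale.Agent.P156.H490

noncomputable section

variable {α : Type*}

theorem avg_add (s : Finset α) (Φ Ψ : α → ℝ) : avg s (fun ω => Φ ω + Ψ ω) = avg s Φ + avg s Ψ := by
  unfold avg
  rw [Finset.sum_add_distrib, add_div]

theorem avg_sub (s : Finset α) (Φ Ψ : α → ℝ) : avg s (fun ω => Φ ω - Ψ ω) = avg s Φ - avg s Ψ := by
  unfold avg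
  rw [Finset.sum_sub_distrib, sub_div]

theorem avg_mul_left (s : Finset α) (c : ℝ) (Φ : α → ℝ) : avg s (fun ω => c * Φ ω) = c * avg s Φ := by
  unfold avg
  rw [← Finset.mul_sum, mul_div_assoc]

theorem avg_congr {s : Finset α} {Φ Ψ : α → ℝ} (h : ∀ ω ∈ s, Φ ω = Ψ ω) : avg s Φ = avg s Ψ := by
  unfold avg
  rw [Finset.sum_congr rfl h]

theorem avg_mono {s : Finset α} {Φ Ψ : α → ℝ} (h : ∀ ω ∈ s, Φ ω ≤ Ψ ω) : avg s Φ ≤ avg s Ψ := by
  unfold avg
  exact div_le_div_of_nonneg_right (Finset.sum_le_sum h) (Nat.cast_nonneg _)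

theorem avg_nonneg {s : Finset α} {Φ : α → ℝ} (h : ∀ ω ∈ s, 0 ≤ Φ ω) : 0 ≤ avg s Φ := by
  unfold avg
  exact div_nonneg (Finset.sum_nonneg h) (Nat.cast_nonneg _)

theorem avg_const_le (s : Finset α) {c : ℝ} (hc : 0 ≤ c) : avg s (fun _ => c) ≤ c := by
  unfold avg
  rw [Finset.sum_const, nsmul_eq_mul]
  rcases Nat.eq_zero_or_pos s.card with h | h
  · simp [h, hc]
  · rw [mul_div_assoc, mul_comm, div_mul_cancel₀]
    exact_mod_cast h.ne'

theorem avg_const {s : Finset α} (hs : s.Nonempty) (c : ℝ) : avg s (fun _ => c) = c := by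
  unfold avg
  rw [Finset.sum_const, nsmul_eq_mul]
  have : (s.card : ℝ) ≠ 0 := by exact_mod_cast hs.card_pos.ne'
  field_simp

theorem avg_le_of_le {s : Finset α} {Φ : α → ℝ} {c : ℝ} (hc : 0 ≤ c) (h : ∀ ω ∈ s, Φ ω ≤ c) :
    avg s Φ ≤ c := (avg_mono h).trans (avg_const_le s hc)

theorem abs_avg_le (s : Finset α) (Φ : α → ℝ) : |avg s Φ| ≤ avg s (fun ω => |Φ ω|) := by
  unfold avg
  rw [abs_div, abs_of_nonneg (Nat.cast_nonneg (α := ℝ) s.card)]
  exact div_le_div_of_nonneg_right (Finset.abs_sum_le_sum_abs _ _) (Nat.cast_nonneg _)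

theorem avg_sum {ι : Type*} (s : Finset α) (t : Finset ι) (Φ : ι → α → ℝ) :
    avg s (fun ω => ∑ i ∈ t, Φ i ω) = ∑ i ∈ t, avg s (Φ i) := by
  unfold avg
  rw [Finset.sum_comm, Finset.sum_div]

theorem prob_nonneg (s : Finset α) (P : α → Prop) : 0 ≤ prob s P := by
  classical
  unfold prob
  exact avg_nonneg fun ω _ => by split_ifs <;> norm_num

theorem prob_le_one (s : Finset α) (P : α → Prop) : prob s P ≤ 1 := by
  classical
  unfold prob
  exact avg_le_of_le zero_le_one fun ω _ => by split_ifs <;> norm_num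

theorem prob_mono {s : Finset α} {P Q : α → Prop} (h : ∀ ω ∈ s, P ω → Q ω) :
    prob s P ≤ prob s Q := by
  classical
  unfold prob
  refine avg_mono fun ω hω => ?_
  by_cases hP : P ω
  · rw [if_pos hP, if_pos (h ω hω hP)]
  · rw [if_neg hP]; split_ifs <;> norm_num

theorem prob_or_le (s : Finset α) (P Q : α → Prop) :
    prob s (fun ω => P ω ∨ Q ω) ≤ prob s P + prob s Q := by
  classical
  unfold prob
  rw [← avg_add]
  refine avg_mono fun ω _ => ?_
  by_cases hP : P ω <;> by_cases hQ : Q ω <;> simp [hP, hQ]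

/-- Markov's inequality -/
theorem prob_le_avg {s : Finset α} {Φ : α → ℝ} {t : ℝ} (ht : 0 < t) (h : ∀ ω ∈ s, 0 ≤ Φ ω) :
    prob s (fun ω => t ≤ Φ ω) ≤ avg s Φ / t := by
  classical
  rw [div_eq_inv_mul, ← avg_mul_left]
  unfold prob
  refine avg_mono fun ω hω => ?_
  split_ifs with h1
  · rw [← div_eq_inv_mul, one_le_div ht]; exact h1
  · have := h ω hω; positivity

/-- a bounded difference which is small off an event -/
theorem abs_avg_sub_le {s : Finset α} {Φ Ψ : α → ℝ} {P : α → Prop} {δ C : ℝ} (hδ : 0 ≤ δ)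
    (h1 : ∀ ω ∈ s, ¬ P ω → |Φ ω - Ψ ω| ≤ δ) (h2 : ∀ ω ∈ s, |Φ ω - Ψ ω| ≤ C) :
    |avg s Φ - avg s Ψ| ≤ δ + C * prob s P := by
  classical
  rw [← avg_sub]
  refine (abs_avg_le _ _).trans ?_
  refine le_trans (avg_mono (Ψ := fun ω => δ + C * (if P ω then 1 else 0)) fun ω hω => ?_) ?_
  · by_cases hP : P ω
    · rw [if_pos hP, mul_one]
      exact (h2 ω hω).trans (by linarith)
    · rw [if_neg hP, mul_zero, add_zero]
      exact h1 ω hω hP
  · rw [avg_add, avg_mul_left]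
    exact add_le_add (avg_const_le s hδ) le_rfl

end

end Vale.Agent.P156.H490
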