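import Vale.Agent.P156.H490.Schur
import Vale.Agent.P156.H490.Prob

/-! Block E, graph instance (I4): the determinant of the centre matrix is bounded below. -/

open MeasureTheory Filter Topology Matrix Finset

namespace Vale.Agent.P156.H490

noncomputable section

theorem norm_det_le {ι : Type*} [Fintype ι] [DecidableEq ι] (M : Matrix ι ι ℂ) {C : ℝ}
    (h : ∀ i j, ‖M i j‖ ≤ C) : ‖M.det‖ ≤ (Fintype.card ι).factorial * C ^ Fintype.card ι := by
  rw [Matrix.det_apply]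
  refine (norm_sum_le _ _).trans ?_
  have : ∀ σ : Equiv.Perm ι, ‖Equiv.Perm.sign σ • ∏ i, M (σ i) i‖ ≤ C ^ Fintype.card ι := by
    intro σ
    rw [Units.smul_def, zsmul_eq_mul, norm_mul]
    have h1 : ‖((Equiv.Perm.sign σ : ℤˣ) : ℤ)‖ = 1 := by
      rcases Int.units_eq_one_or (Equiv.Perm.sign σ) with h | h <;> simp [h]
    have h2 : ‖(((Equiv.Perm.sign σ : ℤˣ) : ℤ) : ℂ)‖ = 1 := by
      rcases Int.units_eq_one_or (Equiv.Perm.sign σ) with h | h <;> simp [h]
    rw [h2, one_mul, norm_prod]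
    refine (Finset.prod_le_prod (fun _ _ => norm_nonneg _) (fun i _ => h (σ i) i)).trans ?_
    rw [Finset.prod_const, Finset.card_univ]
  refine (Finset.sum_le_sum fun σ _ => this σ).trans ?_
  rw [Finset.sum_const, Finset.card_univ, Fintype.card_perm, nsmul_eq_mul]

/-- lower bound for the determinant of the centre matrix -/
theorem norm_det_centreMat_ge {n d K : ℕ} {ω : SimpleGraph (Fin n) × StarPos n d K}
    (hω : ω ∈ ZZs n d K) {z : ℂ}
    (h0 : IsUnit (cutMat (adj ω.1) ∅ z).det) (hD : IsUnit (cutMat (adj ω.1) (centres ω) z).det)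
    {B : ℝ} (hR : ∀ a b, ‖leadMat ω z a b‖ ≤ B) :
    (((K.factorial : ℝ) * (‖z‖ + d ^ 2 * B + 1) ^ K)⁻¹ : ℝ) ≤ ‖(centreMat ω z).det‖ := by
  have hu := isUnit_centreMat hω h0 hD
  have h1 : ‖((centreMat ω z)⁻¹).det‖ ≤ (K.factorial : ℝ) * (‖z‖ + d ^ 2 * B + 1) ^ K := by
    have := norm_det_le ((centreMat ω z)⁻¹) (C := ‖z‖ + d ^ 2 * B + 1) (fun i j => by
      rw [centreMat_inv hω h0 hD, norm_neg]
      refine (norm_add_le _ _).trans ?_
      have h2 : ‖(if i = j then z else 0)‖ ≤ ‖z‖ := by split_ifs <;> simp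
      have h3 : ‖∑ k : Fin d, ∑ k' : Fin d, leadMat ω z (i, k) (j, k')‖ ≤ d ^ 2 * B := by
        refine (norm_sum_le _ _).trans ?_
        refine (Finset.sum_le_sum fun k _ => (norm_sum_le _ _).trans
          (Finset.sum_le_sum fun k' _ => hR (i, k) (j, k'))).trans ?_
        simp only [Finset.sum_const, Finset.card_univ, Fintype.card_fin, nsmul_eq_mul]
        rw [← mul_assoc, ← pow_two]
      linarith)
    simpa using this
  rw [Matrix.det_nonsing_inv, Ring.inverse_eq_inv', norm_inv] at h1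
  have hpos : 0 < ‖(centreMat ω z).det‖ := norm_pos_iff.2 hu.ne_zero
  exact inv_le_of_inv_le₀ hpos h1

variable {d : ℕ} {𝒰 : Ultrafilter ℕ} {E : ℕ → ℝ} {E₀ : ℝ}

/-- the centre matrix is nonsingular, uniformly -/
theorem T3_det (hGS : GoodSeq d 𝒰 E E₀) (hZW : SpecZW d) (K : ℕ) {ε : ℝ} (hε : 0 < ε) :
    ∃ c > 0, ∀ᶠ n in (𝒰 : Filter ℕ),
      prob (WW n d K) (fun ω => ‖(centreMat ω (E n : ℂ)).det‖ < c) ≤ ε := by
  obtain ⟨B, hB⟩ := hGS.T3 K (ε / 2) (by positivity)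
  obtain ⟨C, hC⟩ := hZW K
  set B' := max B 0 with hB'
  set c : ℝ := ((K.factorial : ℝ) * (|E₀| + 1 + d ^ 2 * B' + 1) ^ K)⁻¹ with hc
  have hcpos : 0 < c := by positivity
  refine ⟨c, hcpos, ?_⟩
  have hE : ∀ᶠ n in (𝒰 : Filter ℕ), |E n| < |E₀| + 1 := by
    have h1 : Tendsto (fun n => |E n|) 𝒰 (𝓝 |E₀|) := hGS.lim.abs
    exact h1.eventually_lt_const (by linarith)
  have hCn : ∀ᶠ n : ℕ in (𝒰 : Filter ℕ), C / (n : ℝ) ≤ ε / 2 := by
    have h1 : Tendsto (fun n : ℕ => C / (n : ℝ)) atTop (𝓝 0) := tendsto_const_div_atTop_nhds_zero_nat C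
    have h2 := h1.mono_left hGS.atTop
    exact (h2.eventually_lt_const (by positivity)).mono fun _ h => h.le
  filter_upwards [hB, hE, hCn, hGS.even, hGS.nonsing] with n h1 h2 h3 h4 h5
  have h6 : prob (WW n d K) (fun ω => ‖(centreMat ω (E n : ℂ)).det‖ < c) ≤
      prob (WW n d K) (fun ω => ω ∉ ZZs n d K ∨ ∃ a b, B < ‖leadMat ω (E n : ℂ) a b‖) := by
    refine prob_mono fun ω hω hdet => ?_
    by_contra hcon
    push Not at hcon
    obtain ⟨hZ, hR⟩ := hcon
    have h7 := norm_det_centreMat_ge hZ (z := (E n : ℂ)) (h5 _ (mem_WW.1 hω).1 ∅)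
      (h5 _ (mem_WW.1 hω).1 _) (fun a b => (hR a b).trans (le_max_left B 0))
    have h8 : c ≤ ((K.factorial : ℝ) * (‖(E n : ℂ)‖ + d ^ 2 * B' + 1) ^ K)⁻¹ := by
      rw [hc]
      have h9 : ‖(E n : ℂ)‖ ≤ |E₀| + 1 := by
        rw [Complex.norm_real, Real.norm_eq_abs]
        exact h2.le
      have hB0 : 0 ≤ B' := le_max_right _ _
      gcongr
    exact absurd hdet (not_lt.2 (h8.trans h7))
  refine h6.trans ((prob_or_le _ _ _).trans ?_)
  have h10 := hC n h4.1 h4.2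
  linarith

end

end Vale.Agent.P156.H490
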