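import Vale.Agent.P156.H490.Del
import Vale.Agent.P156.H490.T3
import Vale.Agent.P156.H167.E2

/-! Block E3: from the rotation invariance of the star matrices to `SpecOInv`. -/

open MeasureTheory Filter Topology Matrix Finset

set_option linter.unusedSectionVars false

namespace Vale.Agent.P156.H490

noncomputable section

/-- the real star matrix at a real energy -/
def gst {n d K : ℕ} (ω : SimpleGraph (Fin n) × StarPos n d K) (E : ℝ) :
    Matrix (Fin K × Option (Fin d)) (Fin K × Option (Fin d)) ℝ :=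
  (starMat ω (E : ℂ)).map Complex.re

/-- output of block E1 -/
def E1Out (d : ℕ) : Prop :=
  ∀ (𝒰 : Ultrafilter ℕ) (E : ℕ → ℝ) (E₀ : ℝ), GoodSeq d 𝒰 E E₀ →
  ∀ (K : ℕ) (O : Matrix (Fin K) (Fin K) ℝ), O * Oᵀ = 1 →
  ∀ Φ : Matrix (Fin K × Option (Fin d)) (Fin K × Option (Fin d)) ℝ → ℝ, Continuous Φ →
  ∀ C : ℝ, (∀ M, |Φ M| ≤ C) →
    Tendsto (fun n => avg (WW n d K) (fun ω => Φ (gst ω (E n)))
      - avg (WW n d K) (fun ω => Φ (tens (Option (Fin d)) O * gst ω (E n) *
        (tens (Option (Fin d)) O)ᵀ))) 𝒰 (𝓝 0)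

/-! ### The finite `n` identities -/

section finite

variable {n d K : ℕ} {ω : SimpleGraph (Fin n) × StarPos n d K} {E : ℝ}

theorem gst_apply (h : NonEig ω.1 E) (a b : Fin K × Option (Fin d)) :
    gst ω E a b = ∑ i, phi ω.1 i (pos ω a) * phi ω.1 i (pos ω b) / xx E ω.1 i := by
  unfold gst
  rw [Matrix.map_apply, starMat_real h, Complex.ofReal_re]

theorem cx_gst (h : NonEig ω.1 E) : cx (gst ω E) = starMat ω (E : ℂ) := by
  ext a b
  have h1 : cx (gst ω E) a b = ((gst ω E a b : ℝ) : ℂ) := rfl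
  rw [h1, gst_apply h, starMat_real h]

theorem gst_symm (h : NonEig ω.1 E) : (gst ω E)ᵀ = gst ω E := by
  ext a b
  rw [Matrix.transpose_apply, gst_apply h, gst_apply h]
  exact Finset.sum_congr rfl fun i _ => by ring

theorem del_symm {κ δ : Type} [Fintype κ] [DecidableEq κ] [Fintype δ] [DecidableEq δ]
    {M : Matrix (κ × Option δ) (κ × Option δ) ℝ} (h : Mᵀ = M) : (del M)ᵀ = del M := by
  have h1 : (bLL M)ᵀ = bLL M := by
    unfold bLL
    rw [Matrix.transpose_submatrix, h]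
  have h2 : (bLD M)ᵀ = bDL M := by
    unfold bLD bDL
    rw [Matrix.transpose_submatrix, h]
  have h3 : (bDL M)ᵀ = bLD M := by
    rw [← h2, Matrix.transpose_transpose]
  have h4 : (bDD M)ᵀ = bDD M := by
    unfold bDD
    rw [Matrix.transpose_submatrix, h]
  unfold del
  rw [Matrix.transpose_sub, Matrix.transpose_mul, Matrix.transpose_mul,
    Matrix.transpose_nonsing_inv, h1, h2, h3, h4, Matrix.mul_assoc]

theorem cx_inv {ι : Type*} [Fintype ι] [DecidableEq ι] {C : Matrix ι ι ℝ} (h : C.det ≠ 0) :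
    (cx C)⁻¹ = cx C⁻¹ := by
  apply Matrix.inv_eq_left_inv
  rw [← cx_mul, Matrix.nonsing_inv_mul _ (isUnit_iff_ne_zero.2 h), cx_one]

theorem det_cx {ι : Type*} [Fintype ι] [DecidableEq ι] (C : Matrix ι ι ℝ) :
    (cx C).det = ((C.det : ℝ) : ℂ) := by
  have := (RingHom.map_det Complex.ofRealHom C).symm
  exact this

theorem centreMat_eq (h : NonEig ω.1 E) : centreMat ω (E : ℂ) = cx (bDD (gst ω E)) := by
  have := cx_gst (ω := ω) h
  ext i j
  have h1 := congrFun (congrFun this (i, none)) (j, none)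
  exact h1.symm

theorem norm_det_centreMat (h : NonEig ω.1 E) :
    ‖(centreMat ω (E : ℂ)).det‖ = |(bDD (gst ω E)).det| := by
  rw [centreMat_eq h, det_cx, Complex.norm_real, Real.norm_eq_abs]

theorem leadMat_eq_del (hω : ω ∈ ZZs n d K)
    (h0 : IsUnit (cutMat (adj ω.1) ∅ (E : ℂ)).det)
    (hD : IsUnit (cutMat (adj ω.1) (centres ω) (E : ℂ)).det) :
    leadMat ω (E : ℂ) = cx (del (gst ω E)) := by
  have h := nonEig_of_isUnit h0
  have hu := isUnit_centreMat hω h0 hD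
  have hC : (bDD (gst ω E)).det ≠ 0 := by
    intro hc
    apply hu.ne_zero
    rw [centreMat_eq h, det_cx, hc]
    simp
  ext p q
  rw [leadMat_eq hω h0 hD, centreMat_eq h, cx_inv hC]
  have hs : ∀ a b, starMat ω (E : ℂ) a b = ((gst ω E a b : ℝ) : ℂ) := fun a b => by
    rw [← cx_gst h]; rfl
  simp only [hs, Matrix.map_apply]
  unfold del
  rw [Matrix.sub_apply, Matrix.mul_apply]
  simp only [Matrix.mul_apply, bLL, bLD, bDL, Matrix.submatrix_apply]
  push_cast
  congr 1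
  rw [Finset.sum_comm]
  refine Finset.sum_congr rfl fun k _ => ?_
  rw [Finset.sum_mul]
  refine Finset.sum_congr rfl fun j _ => ?_
  ring

/-- the scattering matrix as a function of the star matrix -/
theorem toSymU_SX (hω : ω ∈ ZZs n d K)
    (h0 : IsUnit (cutMat (adj ω.1) ∅ (E : ℂ)).det)
    (hD : IsUnit (cutMat (adj ω.1) (centres ω) (E : ℂ)).det) :
    toSymU (SX E ω) = cayS (mE d E) (del (gst ω E)) := by
  unfold SX cayS
  rw [leadMat_eq_del hω h0 hD, symR_eq (del_symm (gst_symm (nonEig_of_isUnit h0)))]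

end finite

/-! ### Uniform continuity -/

open scoped Matrix.Norms.Elementwise in
theorem unif_cont {ι : Type} [Fintype ι] [DecidableEq ι] (F : C(SymU ι, ℝ)) {ε : ℝ} (hε : 0 < ε) :
    ∃ δ > 0, ∀ S T : SymU ι, (∀ i j, ‖(S.1 - T.1) i j‖ < δ) → |F S - F T| < ε := by
  have : CompactSpace (SymU ι) := inferInstanceAs (CompactSpace (Vale.Agent.P156.F.SymU ι))
  have huc : UniformContinuous F := CompactSpace.uniformContinuous_of_continuous F.continuous
  obtain ⟨δ, hδ, h⟩ := (Metric.uniformContinuous_iff (α := SymU ι) (β := ℝ)).1 huc ε hε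
  refine ⟨δ, hδ, fun S T hST => ?_⟩
  have := h (a := S) (b := T) (by
    rw [Subtype.dist_eq, dist_eq_norm]
    exact (Matrix.norm_lt_iff hδ).2 hST)
  rwa [Real.dist_eq] at this

theorem bounded_cont {ι : Type} [Fintype ι] [DecidableEq ι] (F : C(SymU ι, ℝ)) :
    ∃ C, 0 ≤ C ∧ ∀ S, |F S| ≤ C := by
  have : CompactSpace (SymU ι) := inferInstanceAs (CompactSpace (Vale.Agent.P156.F.SymU ι))
  refine ⟨‖F‖, norm_nonneg _, fun S => ?_⟩
  have := F.norm_coe_le_norm S
  rwa [Real.norm_eq_abs] at this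

/-- `F ∘ conjSymU U` -/
def compConj {ι : Type} [Fintype ι] [DecidableEq ι] (F : C(SymU ι, ℝ)) {U : Matrix ι ι ℂ}
    (hU : U ∈ Matrix.unitaryGroup ι ℂ) : C(SymU ι, ℝ) :=
  ⟨fun S => F (conjSymU U S), F.continuous.comp (continuous_conjSymU hU)⟩

/-! ### the tree Stieltjes transform -/

theorem mE_im_pos {d : ℕ} (hd : 3 ≤ d) {E : ℝ} (hE : |E| < 2 * Real.sqrt ((d : ℝ) - 1)) :
    0 < (mE d E).im := by
  have hd1 : (0 : ℝ) < (d : ℝ) - 1 := by
    have : (3 : ℝ) ≤ d := by exact_mod_cast hd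
    linarith
  have h1 : E ^ 2 < 4 * ((d : ℝ) - 1) := by
    have h2 := sq_lt_sq' (by linarith [neg_abs_le E, abs_nonneg E]) (lt_of_le_of_lt (le_abs_self E) hE)
    rw [mul_pow, Real.sq_sqrt hd1.le] at h2
    linarith
  have h3 : mE d E = ((-E / (2 * ((d : ℝ) - 1)) : ℝ) : ℂ) +
      ((Real.sqrt (4 * ((d : ℝ) - 1) - E ^ 2) / (2 * ((d : ℝ) - 1)) : ℝ) : ℂ) * Complex.I := by
    unfold mE
    push_cast
    have : (2 : ℂ) * ((d : ℂ) - 1) ≠ 0 := by
      have : (2 * ((d : ℝ) - 1) : ℝ) ≠ 0 := by positivity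
      exact_mod_cast this
    field_simp
  rw [h3]
  simp only [Complex.add_im, Complex.ofReal_im, Complex.mul_im, Complex.ofReal_re, Complex.I_im,
    Complex.I_re, mul_one, mul_zero, add_zero, zero_add]
  exact div_pos (Real.sqrt_pos.2 (by linarith)) (by positivity)

theorem continuous_mE (d : ℕ) : Continuous (mE d) := by
  unfold mE
  refine Continuous.div_const ?_ _
  refine Continuous.add (Complex.continuous_ofReal.neg) ?_
  refine Continuous.mul ?_ continuous_const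
  refine Complex.continuous_ofReal.comp ?_
  exact (continuous_const.sub (continuous_pow 2)).sqrt

/-! ### The chain -/

section chain

variable {d : ℕ} {𝒰 : Ultrafilter ℕ} {E : ℕ → ℝ} {E₀ : ℝ}

theorem div_nat_small (hGS : GoodSeq d 𝒰 E E₀) (C : ℝ) {ε : ℝ} (hε : 0 < ε) :
    ∀ᶠ n : ℕ in (𝒰 : Filter ℕ), C / (n : ℝ) ≤ ε := by
  have h1 : Tendsto (fun n : ℕ => C / (n : ℝ)) atTop (𝓝 0) := tendsto_const_div_atTop_nhds_zero_nat C
  exact ((h1.mono_left hGS.atTop).eventually_lt_const hε).mono fun _ h => h.le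

theorem prob_not_ZZs (hGS : GoodSeq d 𝒰 E E₀) (hZW : SpecZW d) (K : ℕ) {ε : ℝ} (hε : 0 < ε) :
    ∀ᶠ n in (𝒰 : Filter ℕ), prob (WW n d K) (fun ω => ω ∉ ZZs n d K) ≤ ε := by
  obtain ⟨C, hC⟩ := hZW K
  filter_upwards [div_nat_small hGS C hε, hGS.even] with n h1 h2
  exact (hC n h2.1 h2.2).trans h1

/-- replacing the test function by the truncated one -/
theorem tst_close (hGS : GoodSeq d 𝒰 E E₀) (hZW : SpecZW d) (K : ℕ) {ε : ℝ} (hε : 0 < ε)
    {C : ℝ} (hC0 : 0 ≤ C) :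
    ∃ c > 0, ∀ F : C(SymU (Fin K × Fin d), ℝ), (∀ S, |F S| ≤ C) → ∀ᶠ n in (𝒰 : Filter ℕ),
      |avg (WW n d K) (fun ω => F (toSymU (SX (E n) ω))) -
        avg (WW n d K) (fun ω => tst c (mE d E₀) F (gst ω (E n)))| ≤ ε := by
  set ε1 : ℝ := ε / (4 * (2 * C + 1)) with hε1
  have hε1pos : 0 < ε1 := by positivity
  obtain ⟨c, hc, hcn⟩ := T3_det hGS hZW K hε1pos
  refine ⟨c, hc, fun F hC => ?_⟩
  obtain ⟨δ, hδ, hδF⟩ := unif_cont F (half_pos hε)
  have hm0 : 0 < (mE d E₀).im := mE_im_pos hGS.three hGS.bulk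
  have hmE : Tendsto (fun n => mE d (E n)) 𝒰 (𝓝 (mE d E₀)) :=
    ((continuous_mE d).tendsto E₀).comp hGS.lim
  have hbulk : ∀ᶠ n in (𝒰 : Filter ℕ), 0 < (mE d (E n)).im :=
    ((Complex.continuous_im.tendsto _).comp hmE).eventually_const_lt hm0
  have hclose : ∀ᶠ n in (𝒰 : Filter ℕ),
      2 * ‖mE d E₀ - mE d (E n)‖ / (mE d E₀).im + 2 * Fintype.card (Fin K × Fin d) *
        ‖mE d E₀ - mE d (E n)‖ / (mE d E₀).im < δ := by
    have h1 : Tendsto (fun n => 2 * ‖mE d E₀ - mE d (E n)‖ / (mE d E₀).im +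
        2 * Fintype.card (Fin K × Fin d) * ‖mE d E₀ - mE d (E n)‖ / (mE d E₀).im) 𝒰
        (𝓝 (2 * ‖mE d E₀ - mE d E₀‖ / (mE d E₀).im +
        2 * Fintype.card (Fin K × Fin d) * ‖mE d E₀ - mE d E₀‖ / (mE d E₀).im)) := by
      have h2 : Tendsto (fun n => ‖mE d E₀ - mE d (E n)‖) 𝒰 (𝓝 ‖mE d E₀ - mE d E₀‖) :=
        (tendsto_const_nhds.sub hmE).norm
      exact ((h2.const_mul _).div_const _).add ((h2.const_mul _).div_const _)
    have h3 : 2 * ‖mE d E₀ - mE d E₀‖ / (mE d E₀).im +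
        2 * Fintype.card (Fin K × Fin d) * ‖mE d E₀ - mE d E₀‖ / (mE d E₀).im < δ := by
      simp [hδ]
    exact h1.eventually_lt_const h3
  filter_upwards [hcn, prob_not_ZZs hGS hZW K hε1pos, hclose, hbulk, hGS.nonsing]
    with n h1 h2 h3 h4 h5
  have key := abs_avg_sub_le (s := WW n d K) (Φ := fun ω => F (toSymU (SX (E n) ω)))
    (Ψ := fun ω => tst c (mE d E₀) F (gst ω (E n)))
    (P := fun ω => ω ∉ ZZs n d K ∨ ‖(centreMat ω (E n : ℂ)).det‖ < c) (δ := ε / 2) (C := 2 * C)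
    (half_pos hε).le ?_ ?_
  · have h6 := prob_or_le (WW n d K) (fun ω => ω ∉ ZZs n d K)
      (fun ω => ‖(centreMat ω (E n : ℂ)).det‖ < c)
    have h7 : 2 * C * prob (WW n d K) (fun ω => ω ∉ ZZs n d K ∨ ‖(centreMat ω (E n : ℂ)).det‖ < c)
        ≤ 2 * C * (2 * ε1) := mul_le_mul_of_nonneg_left (by linarith) (by positivity)
    have h8 : 2 * C * (2 * ε1) ≤ ε / 2 := by
      have h9 : 2 * C * (2 * ε1) = ε / 2 * (2 * C / (2 * C + 1)) := by
        rw [hε1]; field_simp; ring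
      rw [h9]
      have h10 : 2 * C / (2 * C + 1) ≤ 1 := by
        rw [div_le_one (by positivity)]; linarith
      calc ε / 2 * (2 * C / (2 * C + 1)) ≤ ε / 2 * 1 := by gcongr
        _ = ε / 2 := mul_one _
    linarith
  · intro ω hω hP
    push Not at hP
    obtain ⟨hZ, hdet⟩ := hP
    have h0 := h5 _ (mem_WW.1 hω).1 ∅
    have hD := h5 _ (mem_WW.1 hω).1 (centres ω)
    rw [toSymU_SX hZ h0 hD]
    unfold tst
    rw [← norm_det_centreMat (nonEig_of_isUnit h0), min_eq_left ((one_le_div hc).2 hdet), one_mul,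
      abs_sub_comm]
    refine (hδF _ _ fun i j => ?_).le
    rw [cayS_coe hm0, cayS_coe h4]
    exact (norm_cay_sub_le (symR_symm _) hm0 h4 i j).trans_lt h3
  · intro ω _
    have h6 := hC (toSymU (SX (E n) ω))
    have h7 := abs_tst_le (κ := Fin K) (δ := Fin d) hc (m := mE d E₀) hC (gst ω (E n))
    calc |F (toSymU (SX (E n) ω)) - tst c (mE d E₀) F (gst ω (E n))|
        ≤ |F (toSymU (SX (E n) ω))| + |tst c (mE d E₀) F (gst ω (E n))| := abs_sub _ _
      _ ≤ 2 * C := by linarith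

/-- rotation invariance of the law of the scattering matrix -/
theorem rot_inv (hE1 : E1Out d) (hGS : GoodSeq d 𝒰 E E₀) (hZW : SpecZW d) (K : ℕ)
    {O : Matrix (Fin K) (Fin K) ℝ} (hO : O * Oᵀ = 1) (F : C(SymU (Fin K × Fin d), ℝ)) :
    Tendsto (fun n => avg (WW n d K) (fun ω => F (toSymU (SX (E n) ω))) -
      avg (WW n d K) (fun ω => F (conjSymU (cx (tens (Fin d) O)) (toSymU (SX (E n) ω)))))
      𝒰 (𝓝 0) := by
  have hm0 : 0 < (mE d E₀).im := mE_im_pos hGS.three hGS.bulk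
  obtain ⟨C, hC0, hC⟩ := bounded_cont F
  set F' := compConj F (cx_mem_unitary (tens_mul_transpose (δ := Fin d) hO)) with hF'
  have hC' : ∀ S, |F' S| ≤ C := fun S => hC _
  rw [Metric.tendsto_nhds]
  intro ε hε
  obtain ⟨c, hc, h⟩ := tst_close hGS hZW K (ε := ε / 4) (by positivity) hC0
  have h3 := (Metric.tendsto_nhds.1 (hE1 𝒰 E E₀ hGS K O hO (tst c (mE d E₀) F)
    (continuous_tst hc hm0 F hC) C (abs_tst_le hc hC))) (ε / 4) (by positivity)
  filter_upwards [h F hC, h F' hC', h3] with n h4 h5 h6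
  rw [Real.dist_eq, sub_zero] at h6 ⊢
  have h7 : ∀ ω : SimpleGraph (Fin n) × StarPos n d K,
      tst c (mE d E₀) F (tens (Option (Fin d)) O * gst ω (E n) * (tens (Option (Fin d)) O)ᵀ) =
      tst c (mE d E₀) F' (gst ω (E n)) := fun ω => tst_conj hm0 F hO _
  simp only [h7] at h6
  have h8 : (fun ω : SimpleGraph (Fin n) × StarPos n d K =>
      F (conjSymU (cx (tens (Fin d) O)) (toSymU (SX (E n) ω)))) =
      fun ω => F' (toSymU (SX (E n) ω)) := rfl
  rw [h8]
  set a := avg (WW n d K) (fun ω => F (toSymU (SX (E n) ω)))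
  set a' := avg (WW n d K) (fun ω => F' (toSymU (SX (E n) ω)))
  set b := avg (WW n d K) (fun ω => tst c (mE d E₀) F (gst ω (E n)))
  set b' := avg (WW n d K) (fun ω => tst c (mE d E₀) F' (gst ω (E n)))
  have h9 := abs_le.1 h4
  have h10 := abs_le.1 h5
  have h11 := abs_lt.1 h6
  rw [abs_lt]
  constructor <;> linarith

/-! ### Permutations -/

theorem avg_filter_close {α : Type*} [DecidableEq α] {s t : Finset α} (hts : t ⊆ s) {Ψ : α → ℝ}
    {C : ℝ} (hC : ∀ ω, |Ψ ω| ≤ C) :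
    |avg s Ψ - avg t Ψ| ≤ 2 * C * prob s (fun ω => ω ∉ t) := by
  classical
  have hC0 : s.Nonempty → 0 ≤ C := fun ⟨ω, _⟩ => (abs_nonneg _).trans (hC ω)
  rcases s.eq_empty_or_nonempty with hs | hs
  · subst hs
    have : t = ∅ := Finset.subset_empty.1 hts
    subst this
    simp [avg, prob]
  have hC0 := hC0 hs
  have hsc : (0 : ℝ) < s.card := by exact_mod_cast hs.card_pos
  have hprob : prob s (fun ω => ω ∉ t) = ((s.card : ℝ) - t.card) / s.card := by
    unfold prob avg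
    congr 1
    rw [← Finset.sum_sdiff hts]
    refine (congrArg₂ (· + ·) (Finset.sum_congr rfl (g := fun _ => (1 : ℝ))
      fun ω hω => if_pos (Finset.mem_sdiff.1 hω).2) (Finset.sum_eq_zero
      fun ω hω => if_neg (not_not.2 hω))).trans ?_
    rw [Finset.sum_const, nsmul_eq_mul, mul_one, add_zero, Finset.card_sdiff_of_subset hts,
      Nat.cast_sub (Finset.card_le_card hts)]
  rcases t.eq_empty_or_nonempty with ht | ht
  · subst ht
    have h2 : avg (∅ : Finset α) Ψ = 0 := by simp [avg]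
    rw [h2, sub_zero, hprob]
    have h3 : ((s.card : ℝ) - ((∅ : Finset α).card : ℝ)) / s.card = 1 := by
      simp [hsc.ne']
    rw [h3, mul_one]
    have h4 : |avg s Ψ| ≤ C := (abs_avg_le _ _).trans (avg_le_of_le hC0 fun ω _ => hC ω)
    linarith
  have htc : (0 : ℝ) < t.card := by exact_mod_cast ht.card_pos
  -- `∑_s Ψ = ∑_t Ψ + ∑_{s \ t} Ψ`
  have h5 : ∑ ω ∈ s, Ψ ω = ∑ ω ∈ s \ t, Ψ ω + ∑ ω ∈ t, Ψ ω := (Finset.sum_sdiff hts).symm
  have h6 : |∑ ω ∈ s \ t, Ψ ω| ≤ ((s.card : ℝ) - t.card) * C := by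
    refine (Finset.abs_sum_le_sum_abs _ _).trans ?_
    refine (Finset.sum_le_sum fun ω _ => hC ω).trans ?_
    rw [Finset.sum_const, nsmul_eq_mul, Finset.card_sdiff_of_subset hts,
      Nat.cast_sub (Finset.card_le_card hts)]
  have h7 : |∑ ω ∈ t, Ψ ω| ≤ (t.card : ℝ) * C := by
    refine (Finset.abs_sum_le_sum_abs _ _).trans ?_
    refine (Finset.sum_le_sum fun ω _ => hC ω).trans ?_
    rw [Finset.sum_const, nsmul_eq_mul]
  have hle : (t.card : ℝ) ≤ s.card := by exact_mod_cast Finset.card_le_card hts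
  have h8 : avg s Ψ - avg t Ψ = (∑ ω ∈ s \ t, Ψ ω) / s.card -
      (∑ ω ∈ t, Ψ ω) * (((s.card : ℝ) - t.card) / (s.card * t.card)) := by
    unfold avg
    rw [h5]
    field_simp
    ring
  rw [h8, hprob]
  refine (abs_sub _ _).trans ?_
  rw [abs_div, abs_of_pos hsc, abs_mul, abs_of_nonneg (a := ((s.card : ℝ) - t.card) / _)
    (div_nonneg (by linarith) (by positivity))]
  have h9 : |∑ ω ∈ s \ t, Ψ ω| / s.card ≤ ((s.card : ℝ) - t.card) * C / s.card := by gcongr
  have h10 : |∑ ω ∈ t, Ψ ω| * (((s.card : ℝ) - t.card) / (s.card * t.card)) ≤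
      (t.card : ℝ) * C * (((s.card : ℝ) - t.card) / (s.card * t.card)) :=
    mul_le_mul_of_nonneg_right h7 (div_nonneg (by linarith) (by positivity))
  have h11 : (t.card : ℝ) * C * (((s.card : ℝ) - t.card) / (s.card * t.card)) =
      ((s.card : ℝ) - t.card) * C / s.card := by
    field_simp
  have h12 : 2 * C * (((s.card : ℝ) - t.card) / s.card) =
      ((s.card : ℝ) - t.card) * C / s.card + ((s.card : ℝ) - t.card) * C / s.card := by ring
  linarith

theorem cay_submatrix {ι : Type} [Fintype ι] [DecidableEq ι] (m : ℂ) (R : Matrix ι ι ℂ)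
    (σ : Equiv.Perm ι) : cay m (R.submatrix σ σ) = (cay m R).submatrix σ σ := by
  unfold cay
  have h : ∀ w : ℂ, R.submatrix σ σ - w • (1 : Matrix ι ι ℂ) =
      (R - w • (1 : Matrix ι ι ℂ)).submatrix σ σ := by
    intro w
    ext i j
    simp [Matrix.one_apply]
  rw [h, h, Matrix.inv_submatrix_equiv, Matrix.submatrix_mul_equiv]

theorem permMatrix_conj {ι : Type} [Fintype ι] [DecidableEq ι] (σ : Equiv.Perm ι)
    (M : Matrix ι ι ℂ) :
    cx (Equiv.Perm.permMatrix ℝ σ) * M * (cx (Equiv.Perm.permMatrix ℝ σ))ᵀ =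
      M.submatrix σ σ := by
  ext i j
  simp only [Matrix.mul_apply, Matrix.transpose_apply, Matrix.submatrix_apply]
  have h : ∀ a b, cx (Equiv.Perm.permMatrix ℝ σ) a b = if σ a = b then 1 else 0 := by
    intro a b
    have h1 : cx (Equiv.Perm.permMatrix ℝ σ) a b = ((Equiv.Perm.permMatrix ℝ σ a b : ℝ) : ℂ) := rfl
    rw [h1, Equiv.Perm.permMatrix, PEquiv.toMatrix_apply]
    simp only [Equiv.toPEquiv_apply, Option.mem_def, Option.some.injEq]
    split_ifs <;> simp
  simp only [h]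
  simp

theorem permMatrix_orth {ι : Type} [Fintype ι] [DecidableEq ι] (σ : Equiv.Perm ι) :
    Equiv.Perm.permMatrix ℝ σ * (Equiv.Perm.permMatrix ℝ σ)ᵀ = 1 := by
  rw [Matrix.transpose_permMatrix, ← Matrix.permMatrix_mul]
  simp

/-- permutation invariance of the law of the scattering matrix -/
theorem perm_inv (hP : SpecPerm d) (hGS : GoodSeq d 𝒰 E E₀) (hZW : SpecZW d) (K : ℕ)
    (σ : Equiv.Perm (Fin K × Fin d)) (F : C(SymU (Fin K × Fin d), ℝ)) :
    Tendsto (fun n => avg (WW n d K) (fun ω => F (toSymU (SX (E n) ω))) -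
      avg (WW n d K) (fun ω => F (conjSymU (cx (Equiv.Perm.permMatrix ℝ σ))
        (toSymU (SX (E n) ω))))) 𝒰 (𝓝 0) := by
  classical
  obtain ⟨C, hC0, hC⟩ := bounded_cont F
  have hmE : Tendsto (fun n => mE d (E n)) 𝒰 (𝓝 (mE d E₀)) :=
    ((continuous_mE d).tendsto E₀).comp hGS.lim
  have hbulk : ∀ᶠ n in (𝒰 : Filter ℕ), 0 < (mE d (E n)).im :=
    ((Complex.continuous_im.tendsto _).comp hmE).eventually_const_lt
      (mE_im_pos hGS.three hGS.bulk)
  rw [Metric.tendsto_nhds]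
  intro ε hε
  set ε1 : ℝ := ε / (4 * (2 * C + 1)) with hε1
  have hε1pos : 0 < ε1 := by positivity
  filter_upwards [prob_not_ZZs hGS hZW K hε1pos, hbulk, hGS.nonsing] with n h1 h2 h3
  have hsub : ZZs n d K ⊆ WW n d K := fun ω hω => (mem_ZZs.1 hω).1
  have a1 := avg_filter_close hsub (Ψ := fun ω => F (toSymU (SX (E n) ω))) (fun ω => hC _)
  have a2 := avg_filter_close hsub (Ψ := fun ω => F (conjSymU (cx (Equiv.Perm.permMatrix ℝ σ))
        (toSymU (SX (E n) ω)))) (fun ω => hC _)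
  have a3 : avg (ZZs n d K) (fun ω => F (toSymU (SX (E n) ω))) =
      avg (ZZs n d K) (fun ω => F (conjSymU (cx (Equiv.Perm.permMatrix ℝ σ))
        (toSymU (SX (E n) ω)))) := by
    have h4 := hP n K σ Unit (fun _ => (E n : ℂ))
      (fun R => F (toSymU (cay (mE d (E n)) (R ()))))
    simp only at h4
    refine h4.trans (avg_congr fun ω hω => ?_)
    have hω' := mem_ZZs.1 hω
    have h0 := h3 _ (mem_WW.1 hω'.1).1 ∅
    have hD := h3 _ (mem_WW.1 hω'.1).1 (centres ω)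
    congr 1
    apply Subtype.ext
    have hsx := toSymU_SX hω h0 hD
    have hL := leadMat_eq_del hω h0 hD
    have hsym := del_symm (gst_symm (nonEig_of_isUnit h0))
    have hmem := cay_mem (m := mE d (E n)) hsym h2
    rw [← hL] at hmem
    have hU := cx_mem_unitary (permMatrix_orth σ)
    rw [conjSymU_coe hU, permMatrix_conj, cay_submatrix]
    have h5 : (toSymU (SX (E n) ω)).1 = cay (mE d (E n)) (leadMat ω (E n : ℂ)) :=
      toSymU_coe hmem
    rw [h5]
    apply toSymU_coe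
    rw [← permMatrix_conj]
    exact Vale.Agent.P156.F.conj_mem_symU hU hmem
  rw [Real.dist_eq, sub_zero]
  have h6 : 2 * C * prob (WW n d K) (fun ω => ω ∉ ZZs n d K) ≤ 2 * C * ε1 :=
    mul_le_mul_of_nonneg_left h1 (by positivity)
  have h8 : 2 * C * ε1 < ε / 2 := by
    have h9 : 2 * C * ε1 = ε / 2 * (C / (2 * C + 1)) := by
      rw [hε1]; field_simp; ring
    rw [h9]
    have h10 : C / (2 * C + 1) < 1 := by
      rw [div_lt_one (by positivity)]; linarith
    calc ε / 2 * (C / (2 * C + 1)) < ε / 2 * 1 := by gcongr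
      _ = ε / 2 := mul_one _
  have b1 := abs_le.1 (a1.trans h6)
  have b2 := abs_le.1 (a2.trans h6)
  rw [abs_lt]
  constructor <;> linarith

/-- **Block E**: asymptotic orthogonal invariance of the law of the scattering matrix. -/
theorem specOInv (hE1 : E1Out d) (hP : SpecPerm d) (hZW : SpecZW d) : SpecOInv d := by
  intro 𝒰 E E₀ hGS K hK O hO
  set P : Matrix (Fin K × Fin d) (Fin K × Fin d) ℝ → Prop := fun A =>
    A * Aᵀ = 1 ∧ ∀ F : C(SymU (Fin K × Fin d), ℝ),
      Tendsto (fun n => avg (WW n d K) (fun ω => F (toSymU (SX (E n) ω))) -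
        avg (WW n d K) (fun ω => F (conjSymU (cx A) (toSymU (SX (E n) ω))))) 𝒰 (𝓝 0) with hPdef
  have hmul : ∀ A B, P A → P B → P (A * B) := by
    rintro A B ⟨hA, hA'⟩ ⟨hB, hB'⟩
    refine ⟨?_, fun F => ?_⟩
    · rw [Matrix.transpose_mul]
      calc A * B * (Bᵀ * Aᵀ) = A * (B * Bᵀ) * Aᵀ := by simp only [Matrix.mul_assoc]
        _ = 1 := by rw [hB, Matrix.mul_one, hA]
    · have h1 := hA' F
      have h2 := hB' (compConj F (cx_mem_unitary hA))
      have h3 := h1.add h2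
      rw [add_zero] at h3
      refine h3.congr fun n => ?_
      have h4 : ∀ ω : SimpleGraph (Fin n) × StarPos n d K,
          F (conjSymU (cx (A * B)) (toSymU (SX (E n) ω))) =
          compConj F (cx_mem_unitary hA) (conjSymU (cx B) (toSymU (SX (E n) ω))) := by
        intro ω
        rw [cx_mul, conjSymU_mul (cx_mem_unitary hA) (cx_mem_unitary hB)]
        rfl
      simp only [h4]
      have h5 : ∀ ω : SimpleGraph (Fin n) × StarPos n d K,
          compConj F (cx_mem_unitary hA) (toSymU (SX (E n) ω)) =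
          F (conjSymU (cx A) (toSymU (SX (E n) ω))) := fun ω => rfl
      simp only [h5]
      ring
  have hperm : ∀ σ : Equiv.Perm (Fin K × Fin d), P (Equiv.Perm.permMatrix ℝ σ) := fun σ =>
    ⟨permMatrix_orth σ, fun F => perm_inv hP hGS hZW K σ F⟩
  have hrot : ∀ c s : ℝ, c ^ 2 + s ^ 2 = 1 →
      P (E2.simRot (⟨0, by omega⟩ : Fin K) ⟨1, by omega⟩ c s) := by
    intro c s hcs
    have hne : (⟨0, by omega⟩ : Fin K) ≠ ⟨1, by omega⟩ := by
      intro h
      simp at h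
    have ho : E2.planeRot (⟨0, by omega⟩ : Fin K) ⟨1, by omega⟩ c s *
        (E2.planeRot (⟨0, by omega⟩ : Fin K) ⟨1, by omega⟩ c s)ᵀ = 1 := by
      rw [E2.planeRot_transpose hne, E2.planeRot_mul hne]
      rw [show c * c - s * -s = 1 by nlinarith, show s * c + c * -s = 0 by ring]
      exact E2.planeRot_one_zero hne
    have heq : E2.simRot (⟨0, by omega⟩ : Fin K) ⟨1, by omega⟩ c s =
        tens (Fin d) (E2.planeRot (⟨0, by omega⟩ : Fin K) ⟨1, by omega⟩ c s) := rfl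
    rw [heq]
    exact ⟨tens_mul_transpose ho, fun F => rot_inv hE1 hGS hZW K ho F⟩
  have hd : 0 < d := by have := hGS.three; omega
  have hO' : Oᵀ * O = 1 := by
    exact (Matrix.mem_orthogonalGroup_iff' _ _).1 hO
  have hfin := E2.orth_of_simRot hmul hperm (j₀ := (⟨0, by omega⟩ : Fin K))
    (j₁ := ⟨1, by omega⟩) (by intro h; simp at h) (⟨0, hd⟩ : Fin d) hrot O hO'
  exact hfin.2

end chain

end

end Vale.Agent.P156.H490
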