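import Vale.Agent.P156.H490.Avg
import Vale.Agent.P156.H801.Res

/-! Block E, graph instance (I2): spectral form of `starMat`. -/

open MeasureTheory Filter Topology Matrix Finset

namespace Vale.Agent.P156.H490

noncomputable section

theorem resD_empty {V : Type*} [Fintype V] [DecidableEq V] (A : Matrix V V ℝ) (z : ℂ) :
    resD A ∅ z = H801.rs A z := by
  unfold resD H801.rs
  congr 1
  ext x y
  simp only [cutMat, Finset.notMem_empty, or_self, if_false, Matrix.sub_apply, Matrix.map_apply,
    Matrix.smul_apply, Matrix.one_apply, smul_eq_mul]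
  split_ifs <;> simp

theorem phi_eq {n : ℕ} (G : SimpleGraph (Fin n)) (i v : Fin n) :
    phi G i v = Real.sqrt n * H801.ev (adj_isHermitian G) i v := rfl

theorem sum_phi_mul {n : ℕ} (G : SimpleGraph (Fin n)) (i j : Fin n) :
    ∑ v, phi G i v * phi G j v = if i = j then (n : ℝ) else 0 := by
  have h : ∀ v, phi G i v * phi G j v =
      n * (H801.ev (adj_isHermitian G) i v * H801.ev (adj_isHermitian G) j v) := by
    intro v
    rw [phi_eq, phi_eq]
    have : Real.sqrt n * Real.sqrt n = n := Real.mul_self_sqrt (Nat.cast_nonneg n)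
    linear_combination (H801.ev (adj_isHermitian G) i v * H801.ev (adj_isHermitian G) j v) * this
  simp only [h, ← Finset.mul_sum, H801.ev_orth]
  split_ifs <;> simp

theorem sum_phi_mul' {n : ℕ} (G : SimpleGraph (Fin n)) (v w : Fin n) :
    ∑ i, phi G i v * phi G i w = if v = w then (n : ℝ) else 0 := by
  have h : ∀ i, phi G i v * phi G i w =
      n * (H801.ev (adj_isHermitian G) i v * H801.ev (adj_isHermitian G) i w) := by
    intro i
    rw [phi_eq, phi_eq]
    have : Real.sqrt n * Real.sqrt n = n := Real.mul_self_sqrt (Nat.cast_nonneg n)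
    linear_combination (H801.ev (adj_isHermitian G) i v * H801.ev (adj_isHermitian G) i w) * this
  simp only [h, ← Finset.mul_sum, H801.ev_complete]
  split_ifs <;> simp

/-- `phi_i` is an eigenvector. -/
theorem sum_adj_phi {n : ℕ} (G : SimpleGraph (Fin n)) (i v : Fin n) :
    ∑ w, adj G v w * phi G i w = eig G i * phi G i v := by
  have h := H801.ev_eigen (adj_isHermitian G) i v
  have h1 : ∑ w, adj G v w * phi G i w =
      Real.sqrt n * ∑ w, adj G v w * H801.ev (adj_isHermitian G) i w := by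
    rw [Finset.mul_sum]
    refine Finset.sum_congr rfl fun w _ => ?_
    rw [phi_eq]; ring
  rw [h1, h, phi_eq]
  unfold eig
  ring

/-- the average of `phi_i²` over each vertex of a uniform star is one -/
theorem avg_phi_sq {n d : ℕ} {G : SimpleGraph (Fin n)} (hG : G ∈ regularGraphs n d) (hn : 0 < n)
    (i : Fin n) (a : Option (Fin d)) :
    avg (starsOf d G) (fun s => phi G i (vtx s a) ^ 2) = 1 := by
  rw [avg_star_vtx hG (fun v => phi G i v ^ 2)]
  have h := sum_phi_mul G i i
  simp only [if_true, ← pow_two] at h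
  rw [h]
  have : (n : ℝ) ≠ 0 := by positivity
  exact div_self this

/-- no eigenvalue at the energy `E` -/
def NonEig {n : ℕ} (G : SimpleGraph (Fin n)) (E : ℝ) : Prop := ∀ i, eig G i ≠ E

theorem xx_ne_zero {n : ℕ} {G : SimpleGraph (Fin n)} {E : ℝ} (h : NonEig G E) (i : Fin n) :
    xx E G i ≠ 0 := by
  unfold xx
  have hn : (n : ℝ) ≠ 0 := by
    have : 0 < n := Fin.pos i
    positivity
  exact mul_ne_zero hn (sub_ne_zero.2 (h i))

/-- a nonsingular `A - E` has no eigenvalue `E` -/
theorem nonEig_of_isUnit {n : ℕ} {G : SimpleGraph (Fin n)} {E : ℝ}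
    (h : IsUnit (cutMat (adj G) ∅ (E : ℂ)).det) : NonEig G E := by
  intro i hi
  have hM : cutMat (adj G) ∅ (E : ℂ) *ᵥ (fun v => (phi G i v : ℂ)) = 0 := by
    funext v
    have h1 : (cutMat (adj G) ∅ (E : ℂ) *ᵥ (fun v => (phi G i v : ℂ))) v =
        ((∑ w, adj G v w * phi G i w : ℝ) : ℂ) - E * phi G i v := by
      simp only [Matrix.mulVec, dotProduct, cutMat, Finset.notMem_empty, or_self, if_false,
        sub_mul, Finset.sum_sub_distrib, ite_mul, zero_mul, Finset.sum_ite_eq, Finset.mem_univ,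
        if_true]
      push_cast
      ring
    rw [h1, sum_adj_phi, hi]
    simp
  have hv : (fun v => (phi G i v : ℂ)) = 0 := by
    have := congrArg (fun x => (cutMat (adj G) ∅ (E : ℂ))⁻¹ *ᵥ x) hM
    simpa [Matrix.mulVec_mulVec, Matrix.nonsing_inv_mul _ h] using this
  have hs := sum_phi_mul G i i
  have hz : ∀ v, phi G i v = 0 := fun v => by
    have := congrFun hv v
    simpa using this
  simp only [hz, mul_zero, Finset.sum_const_zero, if_true] at hs
  have hn : (n : ℝ) ≠ 0 := by
    have : 0 < n := Fin.pos i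
    positivity
  exact hn hs.symm

/-- spectral form of the resolvent at a real energy -/
theorem resD_real {n : ℕ} {G : SimpleGraph (Fin n)} {E : ℝ} (h : NonEig G E) (v w : Fin n) :
    resD (adj G) ∅ (E : ℂ) v w = ((∑ i, phi G i v * phi G i w / xx E G i : ℝ) : ℂ) := by
  have hz : ∀ i, ((adj_isHermitian G).eigenvalues i : ℂ) - (E : ℂ) ≠ 0 := by
    intro i
    rw [← Complex.ofReal_sub]
    exact Complex.ofReal_ne_zero.2 (sub_ne_zero.2 (h i))
  rw [resD_empty, H801.rs_apply (adj_isHermitian G) hz]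
  push_cast
  refine Finset.sum_congr rfl fun i _ => ?_
  have hn : (n : ℝ) ≠ 0 := by
    have : 0 < n := Fin.pos i
    positivity
  have hs : Real.sqrt n * Real.sqrt n = n := Real.mul_self_sqrt (Nat.cast_nonneg n)
  have h1 : phi G i v * phi G i w / xx E G i =
      H801.ev (adj_isHermitian G) i v * H801.ev (adj_isHermitian G) i w /
        ((adj_isHermitian G).eigenvalues i - E) := by
    have h2 : (adj_isHermitian G).eigenvalues i - E ≠ 0 := sub_ne_zero.2 (h i)
    rw [phi_eq, phi_eq, xx]
    unfold eig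
    rw [div_eq_div_iff (mul_ne_zero hn h2) h2]
    linear_combination (H801.ev (adj_isHermitian G) i v * H801.ev (adj_isHermitian G) i w *
      ((adj_isHermitian G).eigenvalues i - E)) * hs
  rw [← Complex.ofReal_mul, ← Complex.ofReal_mul, ← Complex.ofReal_div, h1]
  push_cast
  ring

/-- spectral form of the resolvent at `E + i L / n` -/
theorem resD_complex {n : ℕ} (G : SimpleGraph (Fin n)) (E : ℝ) {L : ℝ} (hL : 0 < L)
    (v w : Fin n) :
    resD (adj G) ∅ ((E : ℂ) + ((L / n : ℝ) : ℂ) * Complex.I) v w =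
      ∑ i, ((phi G i v * phi G i w : ℝ) : ℂ) / ((xx E G i : ℂ) - L * Complex.I) := by
  have hn0 : 0 < n := Fin.pos v
  have hn : (n : ℝ) ≠ 0 := by positivity
  have hz : ∀ i, ((adj_isHermitian G).eigenvalues i : ℂ) -
      ((E : ℂ) + ((L / n : ℝ) : ℂ) * Complex.I) ≠ 0 := by
    intro i hi
    have := congrArg Complex.im hi
    simp at this
    rcases this with h | h
    · exact hL.ne' h
    · exact hn0.ne' h
  rw [resD_empty, H801.rs_apply (adj_isHermitian G) hz]
  refine Finset.sum_congr rfl fun i _ => ?_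
  have hs : Real.sqrt n * Real.sqrt n = n := Real.mul_self_sqrt (Nat.cast_nonneg n)
  have hxc : (xx E G i : ℂ) - L * Complex.I =
      (n : ℂ) * (((adj_isHermitian G).eigenvalues i : ℂ) -
      ((E : ℂ) + ((L / n : ℝ) : ℂ) * Complex.I)) := by
    unfold xx eig
    have : (n : ℂ) ≠ 0 := by exact_mod_cast hn
    push_cast
    field_simp
    ring
  have hpc : ((phi G i v * phi G i w : ℝ) : ℂ) =
      (n : ℂ) * ((H801.ev (adj_isHermitian G) i v * H801.ev (adj_isHermitian G) i w : ℝ) : ℂ) := by
    have : phi G i v * phi G i w =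
        n * (H801.ev (adj_isHermitian G) i v * H801.ev (adj_isHermitian G) i w) := by
      rw [phi_eq, phi_eq]
      linear_combination (H801.ev (adj_isHermitian G) i v * H801.ev (adj_isHermitian G) i w) * hs
    rw [this]
    push_cast
    ring
  rw [hxc, hpc, mul_div_mul_left]
  exact_mod_cast hn

/-- real part of the resolvent at `E + i L / n` -/
theorem re_resD_complex {n : ℕ} (G : SimpleGraph (Fin n)) (E : ℝ) {L : ℝ} (hL : 0 < L)
    (v w : Fin n) :
    (resD (adj G) ∅ ((E : ℂ) + ((L / n : ℝ) : ℂ) * Complex.I) v w).re =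
      ∑ i, phi G i v * phi G i w * (xx E G i / (xx E G i ^ 2 + L ^ 2)) := by
  rw [resD_complex G E hL, Complex.re_sum]
  refine Finset.sum_congr rfl fun i _ => ?_
  rw [Complex.div_re]
  have h1 : Complex.normSq ((xx E G i : ℂ) - L * Complex.I) = xx E G i ^ 2 + L ^ 2 := by
    simp [Complex.normSq_apply]
    ring
  rw [h1]
  simp
  ring

/-- imaginary part of the resolvent at `E + i L / n` -/
theorem im_resD_complex {n : ℕ} (G : SimpleGraph (Fin n)) (E : ℝ) {L : ℝ} (hL : 0 < L)
    (v w : Fin n) :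
    (resD (adj G) ∅ ((E : ℂ) + ((L / n : ℝ) : ℂ) * Complex.I) v w).im =
      ∑ i, phi G i v * phi G i w * (L / (xx E G i ^ 2 + L ^ 2)) := by
  rw [resD_complex G E hL, Complex.im_sum]
  refine Finset.sum_congr rfl fun i _ => ?_
  rw [Complex.div_im]
  have h1 : Complex.normSq ((xx E G i : ℂ) - L * Complex.I) = xx E G i ^ 2 + L ^ 2 := by
    simp [Complex.normSq_apply]
    ring
  rw [h1]
  simp
  ring

/-- the exact split -/
theorem inv_split {x L : ℝ} (hx : x ≠ 0) :
    1 / x = x / (x ^ 2 + L ^ 2) + L ^ 2 / (x * (x ^ 2 + L ^ 2)) := by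
  have : x ^ 2 + L ^ 2 ≠ 0 := by positivity
  field_simp

theorem starMat_real {n d K : ℕ} {ω : SimpleGraph (Fin n) × StarPos n d K} {E : ℝ}
    (h : NonEig ω.1 E) (a b : Fin K × Option (Fin d)) :
    starMat ω (E : ℂ) a b =
      ((∑ i, phi ω.1 i (pos ω a) * phi ω.1 i (pos ω b) / xx E ω.1 i : ℝ) : ℂ) :=
  resD_real h _ _

theorem re_starMat {n d K : ℕ} (ω : SimpleGraph (Fin n) × StarPos n d K) (E : ℝ) {L : ℝ}
    (hL : 0 < L) (a b : Fin K × Option (Fin d)) :
    (starMat ω ((E : ℂ) + ((L / n : ℝ) : ℂ) * Complex.I) a b).re =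
      ∑ i, phi ω.1 i (pos ω a) * phi ω.1 i (pos ω b) * (xx E ω.1 i / (xx E ω.1 i ^ 2 + L ^ 2)) :=
  re_resD_complex _ _ hL _ _

end

end Vale.Agent.P156.H490
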