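import Vale.Agent.P156.R2.Spec

/-! Block E, graph instance (I1): the product structure of the sample space `WW`. -/

open MeasureTheory Filter Topology Matrix Finset

namespace Vale.Agent.P156.H490

noncomputable section

open Classical in
/-- the stars of `G` -/
def starsOf {n : ℕ} (d : ℕ) (G : SimpleGraph (Fin n)) : Finset (Fin n × (Fin d → Fin n)) :=
  Finset.univ.filter (fun p => IsStar G p.1 p.2)

/-- the vertex of a star with index `a` -/
def vtx {n d : ℕ} (s : Fin n × (Fin d → Fin n)) (a : Option (Fin d)) : Fin n :=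
  a.elim s.1 s.2

@[simp] theorem mem_starsOf {n d : ℕ} {G : SimpleGraph (Fin n)} {p : Fin n × (Fin d → Fin n)} :
    p ∈ starsOf d G ↔ IsStar G p.1 p.2 := by
  simp [starsOf]

open Classical in
theorem mem_regularGraphs {n d : ℕ} {G : SimpleGraph (Fin n)} :
    G ∈ regularGraphs n d ↔ G.IsRegularOfDegree d := by
  simp [regularGraphs]

/-- permuting the leaves of a star -/
theorem isStar_comp {n d : ℕ} {G : SimpleGraph (Fin n)} {v : Fin n} {l : Fin d → Fin n}
    (h : IsStar G v l) (σ : Equiv.Perm (Fin d)) : IsStar G v (l ∘ σ) := by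
  refine ⟨h.1.comp σ.injective, fun w => ?_⟩
  rw [h.2 w]
  constructor
  · rintro ⟨k, hk⟩
    exact ⟨σ.symm k, by simpa using hk⟩
  · rintro ⟨k, hk⟩
    exact ⟨σ k, hk⟩

/-- orderings of the neighbourhood of `v` -/
def ordEquiv {n d : ℕ} (G : SimpleGraph (Fin n)) (v : Fin n) :
    {l : Fin d → Fin n // IsStar G v l} ≃ (Fin d ≃ G.neighborSet v) where
  toFun l := Equiv.ofBijective (fun k => ⟨l.1 k, (l.2.2 (l.1 k)).2 ⟨k, rfl⟩⟩) (by
    constructor
    · intro a b hab
      exact l.2.1 (congrArg Subtype.val hab)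
    · rintro ⟨w, hw⟩
      obtain ⟨k, hk⟩ := (l.2.2 w).1 hw
      exact ⟨k, Subtype.ext hk⟩)
  invFun e := ⟨fun k => (e k).1, by
    refine ⟨Subtype.val_injective.comp e.injective, fun w => ⟨fun hw => ?_, ?_⟩⟩
    · exact ⟨e.symm ⟨w, hw⟩, by simp⟩
    · rintro ⟨k, rfl⟩
      exact (e k).2⟩
  left_inv l := by
    apply Subtype.ext
    rfl
  right_inv e := by
    ext k
    rfl

open Classical in
theorem card_ord {n d : ℕ} {G : SimpleGraph (Fin n)} (hG : G ∈ regularGraphs n d) (v : Fin n) :
    (Finset.univ.filter (fun l : Fin d → Fin n => IsStar G v l)).card = d.factorial := by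
  rw [← Fintype.card_subtype, Fintype.card_congr (ordEquiv G v)]
  have h1 : Fintype.card (G.neighborSet v) = d := by
    have := mem_regularGraphs.1 hG v
    rw [← SimpleGraph.card_neighborSet_eq_degree] at this
    convert this
  rw [Fintype.card_equiv (Fintype.equivFinOfCardEq h1).symm, Fintype.card_fin]

open Classical in
theorem sum_starsOf {n d : ℕ} (G : SimpleGraph (Fin n)) (Φ : Fin n × (Fin d → Fin n) → ℝ) :
    ∑ s ∈ starsOf d G, Φ s =
      ∑ v, ∑ l ∈ Finset.univ.filter (fun l : Fin d → Fin n => IsStar G v l), Φ (v, l) := by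
  unfold starsOf
  rw [Finset.sum_filter, Fintype.sum_prod_type]
  refine Finset.sum_congr rfl fun v _ => ?_
  rw [Finset.sum_filter]

theorem card_starsOf {n d : ℕ} {G : SimpleGraph (Fin n)} (hG : G ∈ regularGraphs n d) :
    (starsOf d G).card = n * d.factorial := by
  classical
  have h := sum_starsOf (d := d) G (fun _ => (1 : ℝ))
  simp only [Finset.sum_const, nsmul_eq_mul, mul_one, card_ord hG] at h
  simp only [Finset.card_univ, Fintype.card_fin] at h
  exact_mod_cast h

theorem sum_star_centre {n d : ℕ} {G : SimpleGraph (Fin n)} (hG : G ∈ regularGraphs n d)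
    (h : Fin n → ℝ) : ∑ s ∈ starsOf d G, h s.1 = d.factorial * ∑ v, h v := by
  classical
  rw [sum_starsOf]
  simp only [Finset.sum_const, nsmul_eq_mul, card_ord hG]
  rw [Finset.mul_sum]

/-- the leaves of a star are all alike -/
theorem sum_star_leaf_eq {n d : ℕ} (G : SimpleGraph (Fin n)) (h : Fin n → ℝ) (k k' : Fin d) :
    ∑ s ∈ starsOf d G, h (s.2 k) = ∑ s ∈ starsOf d G, h (s.2 k') := by
  classical
  refine Finset.sum_nbij' (fun s => (s.1, s.2 ∘ Equiv.swap k k')) (fun s => (s.1, s.2 ∘ Equiv.swap k k'))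
    ?_ ?_ ?_ ?_ ?_
  · intro s hs
    rw [mem_starsOf] at hs ⊢
    exact isStar_comp hs _
  · intro s hs
    rw [mem_starsOf] at hs ⊢
    exact isStar_comp hs _
  · intro s _
    ext1
    · rfl
    · funext i; simp
  · intro s _
    ext1
    · rfl
    · funext i; simp
  · intro s _
    simp

theorem sum_star_leaf {n d : ℕ} {G : SimpleGraph (Fin n)} (hG : G ∈ regularGraphs n d)
    (h : Fin n → ℝ) (k : Fin d) :
    ∑ s ∈ starsOf d G, h (s.2 k) = d.factorial * ∑ v, h v := by
  classical
  have hd : 0 < d := Fin.pos k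
  have h1 : (d : ℝ) * ∑ s ∈ starsOf d G, h (s.2 k) = ∑ s ∈ starsOf d G, ∑ k' : Fin d, h (s.2 k') := by
    rw [Finset.sum_comm]
    rw [← Finset.sum_congr rfl (fun k' _ => sum_star_leaf_eq G h k k')]
    simp
  have h2 : ∀ s ∈ starsOf d G, ∑ k' : Fin d, h (s.2 k') = ∑ w, if G.Adj s.1 w then h w else 0 := by
    intro s hs
    rw [mem_starsOf] at hs
    rw [← Finset.sum_filter]
    refine Finset.sum_nbij s.2 ?_ ?_ ?_ ?_
    · intro a _
      simpa using (hs.2 (s.2 a)).2 ⟨a, rfl⟩
    · intro a _ b _ hab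
      exact hs.1 hab
    · intro w hw
      simp only [Finset.coe_filter, Finset.mem_univ, true_and, Set.mem_ofPred_eq] at hw
      obtain ⟨k, hk⟩ := (hs.2 w).1 hw
      exact ⟨k, by simp, hk⟩
    · intro _ _; rfl
  rw [Finset.sum_congr rfl h2, sum_star_centre hG (fun v => ∑ w, if G.Adj v w then h w else 0),
    Finset.sum_comm] at h1
  have h3 : ∀ w, ∑ v, (if G.Adj v w then h w else 0) = d * h w := by
    intro w
    rw [← Finset.sum_filter, Finset.sum_const, nsmul_eq_mul]
    have : (Finset.univ.filter (fun v => G.Adj v w)).card = d := by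
      have h4 := mem_regularGraphs.1 hG w
      rw [← SimpleGraph.card_neighborFinset_eq_degree] at h4
      rw [← h4]
      congr 1
      ext v
      simp [SimpleGraph.adj_comm]
    rw [this]
  simp only [h3] at h1
  rw [← Finset.mul_sum, ← mul_assoc, mul_comm (d.factorial : ℝ) (d : ℝ), mul_assoc] at h1
  exact mul_left_cancel₀ (by positivity) h1

/-- each vertex of a uniform star is uniform -/
theorem sum_star_vtx {n d : ℕ} {G : SimpleGraph (Fin n)} (hG : G ∈ regularGraphs n d)
    (h : Fin n → ℝ) (a : Option (Fin d)) :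
    ∑ s ∈ starsOf d G, h (vtx s a) = d.factorial * ∑ v, h v := by
  cases a with
  | none => exact sum_star_centre hG h
  | some k => exact sum_star_leaf hG h k

theorem avg_star_vtx {n d : ℕ} {G : SimpleGraph (Fin n)} (hG : G ∈ regularGraphs n d)
    (h : Fin n → ℝ) (a : Option (Fin d)) :
    avg (starsOf d G) (fun s => h (vtx s a)) = (∑ v, h v) / n := by
  unfold avg
  rw [sum_star_vtx hG, card_starsOf hG]
  push_cast
  have : (d.factorial : ℝ) ≠ 0 := by positivity
  rw [mul_comm (n : ℝ), mul_div_mul_left _ _ this]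

open Classical in
theorem sum_WW {n d K : ℕ} (Φ : SimpleGraph (Fin n) × StarPos n d K → ℝ) :
    ∑ ω ∈ WW n d K, Φ ω = ∑ G ∈ regularGraphs n d,
      ∑ s ∈ Fintype.piFinset (fun _ : Fin K => starsOf d G),
        Φ (G, fun j => (s j).1, fun j => (s j).2) := by
  unfold WW
  rw [Finset.sum_filter, Fintype.sum_prod_type]
  rw [← Finset.sum_filter_add_sum_filter_not Finset.univ (fun G => G ∈ regularGraphs n d)]
  have hz : ∑ x ∈ Finset.univ.filter (fun G => ¬ G ∈ regularGraphs n d), (∑ y : StarPos n d K,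
      if (x, y).1 ∈ regularGraphs n d ∧ ∀ j, IsStar (x, y).1 ((x, y).2.1 j) ((x, y).2.2 j)
        then Φ (x, y) else 0) = 0 := by
    refine Finset.sum_eq_zero fun x hx => Finset.sum_eq_zero fun y _ => ?_
    rw [Finset.mem_filter] at hx
    rw [if_neg]
    exact fun h => hx.2 h.1
  rw [hz, add_zero]
  have hf : Finset.univ.filter (fun G => G ∈ regularGraphs n d) = regularGraphs n d := by
    ext G; simp
  rw [hf]
  refine Finset.sum_congr rfl fun G hG => ?_
  rw [← (Equiv.arrowProdEquivProdArrow (Fin K) (fun _ => Fin n) (fun _ => Fin d → Fin n)).sum_comp,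
    ← Finset.sum_filter]
  refine Finset.sum_congr ?_ fun s _ => rfl
  ext s
  simp [hG, Equiv.arrowProdEquivProdArrow]

theorem card_WW {n d K : ℕ} :
    ((WW n d K).card : ℝ) = (regularGraphs n d).card * ((n * d.factorial : ℕ) : ℝ) ^ K := by
  classical
  have h := sum_WW (n := n) (d := d) (K := K) (fun _ => (1 : ℝ))
  rw [Finset.sum_const, nsmul_eq_mul, mul_one] at h
  rw [h, Finset.card_eq_sum_ones, Nat.cast_sum, Finset.sum_mul]
  refine Finset.sum_congr rfl fun G hG => ?_
  rw [Finset.sum_const, nsmul_eq_mul, mul_one, Fintype.card_piFinset, Finset.prod_const,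
    card_starsOf hG]
  simp

/-- product structure of `WW` -/
theorem avg_WW {n d K : ℕ} (Φ : SimpleGraph (Fin n) × StarPos n d K → ℝ) :
    avg (WW n d K) Φ = avg (regularGraphs n d) (fun G =>
      avg (Fintype.piFinset (fun _ : Fin K => starsOf d G))
        (fun s => Φ (G, fun j => (s j).1, fun j => (s j).2))) := by
  classical
  unfold avg
  rw [sum_WW, card_WW, mul_comm, ← div_div, Finset.sum_div]
  congr 1
  refine Finset.sum_congr rfl fun G hG => ?_
  congr 1
  rw [Fintype.card_piFinset, Finset.prod_const, card_starsOf hG]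
  simp

end

end Vale.Agent.P156.H490
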