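import Vale.Agent.P156.R2.Spec
import Vale.Agent.P156.H801.Res
import Vale.Agent.P156.F.Basic

/-! Block E3: the Cayley transform of a real symmetric matrix. -/

open MeasureTheory Filter Topology Matrix Finset

set_option linter.unusedSectionVars false

namespace Vale.Agent.P156.H490

noncomputable section

variable {ι : Type} [Fintype ι] [DecidableEq ι]

/-- complexification of a real matrix -/
abbrev cx {κ : Type*} (R : Matrix κ κ ℝ) : Matrix κ κ ℂ := R.map (fun x : ℝ => (x : ℂ))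

theorem isHerm {R : Matrix ι ι ℝ} (hR : Rᵀ = R) : R.IsHermitian := by
  rw [Matrix.IsHermitian, Matrix.conjTranspose]
  ext i j
  have := congrFun (congrFun hR i) j
  simpa using this

theorem isUnit_cx_sub {R : Matrix ι ι ℝ} (hR : Rᵀ = R) {w : ℂ} (hw : w.im ≠ 0) :
    IsUnit (cx R - w • (1 : Matrix ι ι ℂ)).det :=
  H801.isUnit_det (isHerm hR) (H801.sub_ne_zero_of_im (isHerm hR) hw)

theorem norm_inv_le {R : Matrix ι ι ℝ} (hR : Rᵀ = R) {w : ℂ} (hw : w.im ≠ 0) (i j : ι) :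
    ‖(cx R - w • (1 : Matrix ι ι ℂ))⁻¹ i j‖ ≤ 1 / |w.im| := by
  have h := H801.rs_apply (isHerm hR) (H801.sub_ne_zero_of_im (isHerm hR) hw) i j
  unfold H801.rs at h
  have h0 : (cx R - w • (1 : Matrix ι ι ℂ))⁻¹ i j = _ := h
  rw [h0]
  refine (norm_sum_le _ _).trans ?_
  have hpos : 0 < |w.im| := abs_pos.2 hw
  have h1 : ∀ k, ‖((H801.ev (isHerm hR) k i * H801.ev (isHerm hR) k j : ℝ) : ℂ) /
      (((isHerm hR).eigenvalues k : ℂ) - w)‖ ≤
      ((H801.ev (isHerm hR) k i * H801.ev (isHerm hR) k i +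
        H801.ev (isHerm hR) k j * H801.ev (isHerm hR) k j) / 2) * (1 / |w.im|) := by
    intro k
    rw [norm_div, Complex.norm_real, Real.norm_eq_abs, div_eq_mul_one_div]
    have h2 : |w.im| ≤ ‖((isHerm hR).eigenvalues k : ℂ) - w‖ := by
      have := Complex.abs_im_le_norm (((isHerm hR).eigenvalues k : ℂ) - w)
      simpa using this
    have h3 : |H801.ev (isHerm hR) k i * H801.ev (isHerm hR) k j| ≤
        (H801.ev (isHerm hR) k i * H801.ev (isHerm hR) k i +
        H801.ev (isHerm hR) k j * H801.ev (isHerm hR) k j) / 2 := by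
      rw [abs_le]
      constructor
      · nlinarith [sq_nonneg (H801.ev (isHerm hR) k i + H801.ev (isHerm hR) k j)]
      · nlinarith [sq_nonneg (H801.ev (isHerm hR) k i - H801.ev (isHerm hR) k j)]
    have h4 : 1 / ‖((isHerm hR).eigenvalues k : ℂ) - w‖ ≤ 1 / |w.im| :=
      one_div_le_one_div_of_le hpos h2
    exact mul_le_mul h3 h4 (by positivity) ((abs_nonneg _).trans h3)
  refine (Finset.sum_le_sum fun k _ => h1 k).trans ?_
  rw [← Finset.sum_mul, ← Finset.sum_div, Finset.sum_add_distrib, H801.ev_complete,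
    H801.ev_complete]
  simp

theorem cx_conjTranspose {R : Matrix ι ι ℝ} (hR : Rᵀ = R) : (cx R)ᴴ = cx R := by
  ext i j
  have := congrFun (congrFun hR i) j
  simp only [Matrix.conjTranspose_apply, Matrix.map_apply, Complex.star_def, Complex.conj_ofReal]
  rw [Matrix.transpose_apply] at this
  rw [this]

theorem cx_transpose {R : Matrix ι ι ℝ} (hR : Rᵀ = R) : (cx R)ᵀ = cx R := by
  ext i j
  have := congrFun (congrFun hR i) j
  simp only [Matrix.transpose_apply, Matrix.map_apply]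
  rw [Matrix.transpose_apply] at this
  rw [this]

theorem commute_sub (X : Matrix ι ι ℂ) (w w' : ℂ) :
    (X - w • (1 : Matrix ι ι ℂ)) * (X - w' • (1 : Matrix ι ι ℂ)) =
      (X - w' • (1 : Matrix ι ι ℂ)) * (X - w • (1 : Matrix ι ι ℂ)) := by
  simp only [sub_mul, mul_sub, Matrix.smul_mul, Matrix.mul_smul, Matrix.one_mul, Matrix.mul_one]
  rw [smul_comm w w']
  abel

/-- the Cayley transform of a real symmetric matrix is symmetric unitary -/
theorem cay_mem {R : Matrix ι ι ℝ} (hR : Rᵀ = R) {m : ℂ} (hm : 0 < m.im) :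
    cay m (cx R) ∈ Matrix.unitaryGroup ι ℂ ∧ (cay m (cx R))ᵀ = cay m (cx R) := by
  set X := cx R with hX
  set Y : Matrix ι ι ℂ := X - m • (1 : Matrix ι ι ℂ) with hY
  set Y' : Matrix ι ι ℂ := X - (starRingEnd ℂ m) • (1 : Matrix ι ι ℂ) with hY'
  have hYu : IsUnit Y.det := isUnit_cx_sub hR hm.ne'
  have hm' : (starRingEnd ℂ m).im ≠ 0 := by simp [hm.ne']
  have hYu' : IsUnit Y'.det := isUnit_cx_sub hR hm'
  have hc : Y * Y' = Y' * Y := commute_sub X m _
  have hYH : Yᴴ = Y' := by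
    rw [hY, hY', Matrix.conjTranspose_sub, Matrix.conjTranspose_smul, Matrix.conjTranspose_one,
      hX, cx_conjTranspose hR]
    rfl
  have hYH' : Y'ᴴ = Y := by rw [← hYH, Matrix.conjTranspose_conjTranspose]
  have hYT : Yᵀ = Y := by
    rw [hY, Matrix.transpose_sub, Matrix.transpose_smul, Matrix.transpose_one, hX, cx_transpose hR]
  have hYT' : Y'ᵀ = Y' := by
    rw [hY', Matrix.transpose_sub, Matrix.transpose_smul, Matrix.transpose_one, hX,
      cx_transpose hR]
  have hcay : cay m X = Y * Y'⁻¹ := rfl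
  have hinv : Y'⁻¹ * Y⁻¹ = Y⁻¹ * Y'⁻¹ := by
    rw [← Matrix.mul_inv_rev, ← Matrix.mul_inv_rev, hc]
  constructor
  · rw [Matrix.mem_unitaryGroup_iff, hcay, Matrix.star_eq_conjTranspose,
      Matrix.conjTranspose_mul, Matrix.conjTranspose_nonsing_inv, hYH, hYH']
    calc Y * Y'⁻¹ * (Y⁻¹ * Y') = Y * (Y'⁻¹ * Y⁻¹) * Y' := by simp only [Matrix.mul_assoc]
      _ = Y * (Y⁻¹ * Y'⁻¹) * Y' := by rw [hinv]
      _ = (Y * Y⁻¹) * (Y'⁻¹ * Y') := by simp only [Matrix.mul_assoc]
      _ = 1 := by rw [Matrix.mul_nonsing_inv _ hYu, Matrix.nonsing_inv_mul _ hYu', Matrix.one_mul]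
  · rw [hcay, Matrix.transpose_mul, Matrix.transpose_nonsing_inv, hYT, hYT']
    -- `Y'⁻¹ * Y = Y * Y'⁻¹`
    calc Y'⁻¹ * Y = Y'⁻¹ * Y * (Y' * Y'⁻¹) := by
          rw [Matrix.mul_nonsing_inv _ hYu', Matrix.mul_one]
      _ = Y'⁻¹ * (Y * Y') * Y'⁻¹ := by simp only [Matrix.mul_assoc]
      _ = Y'⁻¹ * (Y' * Y) * Y'⁻¹ := by rw [hc]
      _ = (Y'⁻¹ * Y') * (Y * Y'⁻¹) := by simp only [Matrix.mul_assoc]
      _ = Y * Y'⁻¹ := by rw [Matrix.nonsing_inv_mul _ hYu', Matrix.one_mul]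

theorem toSymU_coe {S : Matrix ι ι ℂ} (h : S ∈ Matrix.unitaryGroup ι ℂ ∧ Sᵀ = S) :
    (toSymU S).1 = S := by
  unfold toSymU
  rw [dif_pos h]

theorem toSymU_val (S : SymU ι) : toSymU S.1 = S := Subtype.ext (toSymU_coe S.2)

/-- `cay` in terms of the resolvent -/
theorem cay_eq {R : Matrix ι ι ℝ} (hR : Rᵀ = R) {m : ℂ} (hm : 0 < m.im) :
    cay m (cx R) = 1 - (m - starRingEnd ℂ m) •
      (cx R - (starRingEnd ℂ m) • (1 : Matrix ι ι ℂ))⁻¹ := by
  have hm' : (starRingEnd ℂ m).im ≠ 0 := by simp [hm.ne']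
  have hu := isUnit_cx_sub hR hm'
  have h1 : cx R - m • (1 : Matrix ι ι ℂ) =
      (cx R - (starRingEnd ℂ m) • (1 : Matrix ι ι ℂ)) - (m - starRingEnd ℂ m) • 1 := by
    rw [sub_smul]; abel
  unfold cay
  rw [h1, sub_mul, Matrix.mul_nonsing_inv _ hu, Matrix.smul_mul, Matrix.one_mul]

/-- `cay m R` depends uniformly continuously on `m` -/
theorem norm_cay_sub_le {R : Matrix ι ι ℝ} (hR : Rᵀ = R) {m m' : ℂ} (hm : 0 < m.im)
    (hm' : 0 < m'.im) (i j : ι) :
    ‖(cay m (cx R) - cay m' (cx R)) i j‖ ≤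
      2 * ‖m - m'‖ / m.im + 2 * Fintype.card ι * ‖m - m'‖ / m.im := by
  have h1 : (starRingEnd ℂ m).im ≠ 0 := by simp [hm.ne']
  have h2 : (starRingEnd ℂ m').im ≠ 0 := by simp [hm'.ne']
  set P := (cx R - (starRingEnd ℂ m) • (1 : Matrix ι ι ℂ))⁻¹ with hP
  set Q := (cx R - (starRingEnd ℂ m') • (1 : Matrix ι ι ℂ))⁻¹ with hQ
  have hu := isUnit_cx_sub hR h1
  have hu' := isUnit_cx_sub hR h2
  have hPQ : P - Q = (starRingEnd ℂ m - starRingEnd ℂ m') • (P * Q) := by
    have h3 : P * ((cx R - (starRingEnd ℂ m') • (1 : Matrix ι ι ℂ)) -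
        (cx R - (starRingEnd ℂ m) • (1 : Matrix ι ι ℂ))) * Q = P - Q := by
      rw [mul_sub, sub_mul, Matrix.mul_assoc, hQ, Matrix.mul_nonsing_inv _ hu', Matrix.mul_one,
        hP, Matrix.nonsing_inv_mul _ hu, Matrix.one_mul]
    rw [← h3]
    have h4 : (cx R - (starRingEnd ℂ m') • (1 : Matrix ι ι ℂ)) -
        (cx R - (starRingEnd ℂ m) • (1 : Matrix ι ι ℂ)) =
        (starRingEnd ℂ m - starRingEnd ℂ m') • 1 := by
      rw [sub_smul]; abel
    rw [h4, Matrix.mul_smul, Matrix.mul_one, Matrix.smul_mul]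
  have hD : cay m (cx R) - cay m' (cx R) =
      -((m - starRingEnd ℂ m - (m' - starRingEnd ℂ m')) • P) -
        (m' - starRingEnd ℂ m') • (P - Q) := by
    rw [cay_eq hR hm, cay_eq hR hm', ← hP, ← hQ]
    module
  have habs : |(starRingEnd ℂ m).im| = m.im := by simp [abs_of_pos hm]
  have habs' : |(starRingEnd ℂ m').im| = m'.im := by simp [abs_of_pos hm']
  have hPe : ∀ i j, ‖P i j‖ ≤ 1 / m.im := fun i j => by
    have := norm_inv_le hR h1 i j
    rwa [habs] at this
  have hQe : ∀ i j, ‖Q i j‖ ≤ 1 / m'.im := fun i j => by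
    have := norm_inv_le hR h2 i j
    rwa [habs'] at this
  have hPQe : ‖(P * Q) i j‖ ≤ Fintype.card ι * (1 / m.im * (1 / m'.im)) := by
    rw [Matrix.mul_apply]
    refine (norm_sum_le _ _).trans ?_
    refine (Finset.sum_le_sum (g := fun _ => 1 / m.im * (1 / m'.im)) fun k _ => ?_).trans ?_
    · rw [norm_mul]
      exact mul_le_mul (hPe i k) (hQe k j) (norm_nonneg _) (by positivity)
    · rw [Finset.sum_const, Finset.card_univ, nsmul_eq_mul]
  have hstar : ‖starRingEnd ℂ m - starRingEnd ℂ m'‖ = ‖m - m'‖ := by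
    rw [← map_sub, RCLike.norm_conj]
  have h5 : ‖m - starRingEnd ℂ m - (m' - starRingEnd ℂ m')‖ ≤ 2 * ‖m - m'‖ := by
    have : m - starRingEnd ℂ m - (m' - starRingEnd ℂ m') =
        (m - m') - (starRingEnd ℂ m - starRingEnd ℂ m') := by ring
    rw [this]
    refine (norm_sub_le _ _).trans ?_
    rw [hstar]; linarith
  have h6 : ‖m' - starRingEnd ℂ m'‖ = 2 * m'.im := by
    rw [Complex.sub_conj]
    simp [abs_of_pos hm']
  rw [hD, hPQ]
  simp only [Matrix.sub_apply, Matrix.neg_apply, Matrix.smul_apply, smul_eq_mul]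
  refine (norm_sub_le _ _).trans ?_
  rw [norm_neg, norm_mul, norm_mul, norm_mul, hstar, h6]
  refine add_le_add ?_ ?_
  · calc _ ≤ 2 * ‖m - m'‖ * (1 / m.im) := mul_le_mul h5 (hPe i j) (norm_nonneg _) (by positivity)
      _ = _ := by ring
  · calc 2 * m'.im * (‖m - m'‖ * ‖(P * Q) i j‖)
        ≤ 2 * m'.im * (‖m - m'‖ * (Fintype.card ι * (1 / m.im * (1 / m'.im)))) := by gcongr
      _ = _ := by field_simp

/-! ### Continuity -/

theorem continuousAt_matrix_inv {X : Type*} [TopologicalSpace X] {f : X → Matrix ι ι ℂ} {x : X}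
    (hf : ContinuousAt f x) (h : (f x).det ≠ 0) : ContinuousAt (fun y => (f y)⁻¹) x := by
  have h1 : (fun y => (f y)⁻¹) = fun y => ((f y).det)⁻¹ • (f y).adjugate := by
    funext y
    rw [Matrix.inv_def, Ring.inverse_eq_inv']
  rw [h1]
  have hd : ContinuousAt (fun y => (f y).det) x :=
    (Continuous.matrix_det continuous_id).continuousAt.comp hf
  have ha : ContinuousAt (fun y => (f y).adjugate) x :=
    (Continuous.matrix_adjugate continuous_id).continuousAt.comp hf
  exact (hd.inv₀ h).smul ha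

theorem continuousAt_matrix_inv_real {X : Type*} [TopologicalSpace X] {κ : Type*} [Fintype κ]
    [DecidableEq κ] {f : X → Matrix κ κ ℝ} {x : X}
    (hf : ContinuousAt f x) (h : (f x).det ≠ 0) : ContinuousAt (fun y => (f y)⁻¹) x := by
  have h1 : (fun y => (f y)⁻¹) = fun y => ((f y).det)⁻¹ • (f y).adjugate := by
    funext y
    rw [Matrix.inv_def, Ring.inverse_eq_inv']
  rw [h1]
  have hd : ContinuousAt (fun y => (f y).det) x :=
    (Continuous.matrix_det continuous_id).continuousAt.comp hf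
  have ha : ContinuousAt (fun y => (f y).adjugate) x :=
    (Continuous.matrix_adjugate continuous_id).continuousAt.comp hf
  exact (hd.inv₀ h).smul ha

/-- symmetrisation -/
def symR {κ : Type*} (R : Matrix κ κ ℝ) : Matrix κ κ ℝ := (1 / 2 : ℝ) • (R + Rᵀ)

theorem symR_symm {κ : Type*} (R : Matrix κ κ ℝ) : (symR R)ᵀ = symR R := by
  unfold symR
  rw [Matrix.transpose_smul, Matrix.transpose_add, Matrix.transpose_transpose, add_comm]

theorem symR_eq {κ : Type*} {R : Matrix κ κ ℝ} (h : Rᵀ = R) : symR R = R := by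
  unfold symR
  rw [h, ← two_smul ℝ R, smul_smul]
  norm_num

theorem continuous_symR {κ : Type*} : Continuous (symR : Matrix κ κ ℝ → Matrix κ κ ℝ) := by
  have h : Continuous (fun R : Matrix κ κ ℝ => R + Rᵀ) :=
    continuous_id.add continuous_id.matrix_transpose
  exact h.const_smul (1 / 2 : ℝ)

/-- the Cayley transform as an element of `SymU` -/
def cayS (m : ℂ) (R : Matrix ι ι ℝ) : SymU ι := toSymU (cay m (cx (symR R)))

theorem cayS_coe {m : ℂ} (hm : 0 < m.im) (R : Matrix ι ι ℝ) :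
    (cayS m R).1 = cay m (cx (symR R)) :=
  toSymU_coe (cay_mem (symR_symm R) hm)

theorem continuous_cx {κ : Type*} : Continuous (cx : Matrix κ κ ℝ → Matrix κ κ ℂ) :=
  continuous_id.matrix_map Complex.continuous_ofReal

theorem continuous_cayS {m : ℂ} (hm : 0 < m.im) : Continuous (cayS (ι := ι) m) := by
  rw [continuous_induced_rng]
  have h : (Subtype.val ∘ cayS (ι := ι) m) = fun R => cay m (cx (symR R)) := by
    funext R
    exact cayS_coe hm R
  rw [h]
  have hX : Continuous (fun R : Matrix ι ι ℝ => cx (symR R)) := continuous_cx.comp continuous_symR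
  unfold cay
  refine Continuous.mul (hX.sub continuous_const) ?_
  rw [continuous_iff_continuousAt]
  intro R
  have hm' : (starRingEnd ℂ m).im ≠ 0 := by simp [hm.ne']
  exact continuousAt_matrix_inv (hX.sub continuous_const).continuousAt
    (isUnit_cx_sub (symR_symm R) hm').ne_zero

end

end Vale.Agent.P156.H490
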