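import Vale.Agent.P156.H490.CayR
import Vale.Agent.P156.H490.Schur

/-! Block E3: the deletion map, its continuity and equivariance. -/

open MeasureTheory Filter Topology Matrix Finset

set_option linter.unusedSectionVars false

namespace Vale.Agent.P156.H490

noncomputable section

variable {κ δ : Type} [Fintype κ] [DecidableEq κ] [Fintype δ] [DecidableEq δ]

/-- `O ⊗ 1` -/
def tens (δ : Type) [DecidableEq δ] (O : Matrix κ κ ℝ) : Matrix (κ × δ) (κ × δ) ℝ :=
  fun p q => if p.2 = q.2 then O p.1 q.1 else 0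

theorem tens_mul_apply {β : Type*} (O : Matrix κ κ ℝ) (M : Matrix (κ × δ) β ℝ) (p : κ × δ)
    (b : β) : (tens δ O * M) p b = ∑ j, O p.1 j * M (j, p.2) b := by
  rw [Matrix.mul_apply, Fintype.sum_prod_type]
  refine Finset.sum_congr rfl fun j _ => ?_
  simp only [tens, ite_mul, zero_mul]
  rw [Finset.sum_ite_eq]
  simp

theorem mul_tens_transpose_apply {β : Type*} (O : Matrix κ κ ℝ) (M : Matrix β (κ × δ) ℝ) (b : β)
    (q : κ × δ) : (M * (tens δ O)ᵀ) b q = ∑ k, M b (k, q.2) * O q.1 k := by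
  rw [Matrix.mul_apply, Fintype.sum_prod_type]
  refine Finset.sum_congr rfl fun j _ => ?_
  simp only [tens, Matrix.transpose_apply, mul_ite, mul_zero]
  rw [Finset.sum_ite_eq]
  simp

theorem tens_mul_transpose {O : Matrix κ κ ℝ} (hO : O * Oᵀ = 1) :
    tens δ O * (tens δ O)ᵀ = 1 := by
  ext p q
  rw [mul_tens_transpose_apply, Matrix.one_apply]
  have h := congrFun (congrFun hO p.1) q.1
  rw [Matrix.mul_apply, Matrix.one_apply] at h
  simp only [Matrix.transpose_apply] at h
  simp only [tens]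
  by_cases h2 : p.2 = q.2
  · simp only [h2, if_true]
    rw [h]
    by_cases h1 : p.1 = q.1
    · rw [if_pos h1, if_pos (Prod.ext h1 h2)]
    · rw [if_neg h1, if_neg]
      intro h3
      exact h1 (congrArg Prod.fst h3)
  · simp only [h2, if_false, zero_mul, Finset.sum_const_zero]
    rw [if_neg]
    intro h3
    exact h2 (congrArg Prod.snd h3)

/-- the four blocks of a matrix on `κ × Option δ` -/
def bLL (M : Matrix (κ × Option δ) (κ × Option δ) ℝ) : Matrix (κ × δ) (κ × δ) ℝ :=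
  M.submatrix (fun p => (p.1, some p.2)) (fun p => (p.1, some p.2))
def bLD (M : Matrix (κ × Option δ) (κ × Option δ) ℝ) : Matrix (κ × δ) κ ℝ :=
  M.submatrix (fun p => (p.1, some p.2)) (fun j => (j, none))
def bDL (M : Matrix (κ × Option δ) (κ × Option δ) ℝ) : Matrix κ (κ × δ) ℝ :=
  M.submatrix (fun j => (j, none)) (fun p => (p.1, some p.2))
def bDD (M : Matrix (κ × Option δ) (κ × Option δ) ℝ) : Matrix κ κ ℝ :=
  M.submatrix (fun j => (j, none)) (fun j => (j, none))

/-- the deletion map: from the resolvent on the stars to the resolvent on the leads -/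
def del (M : Matrix (κ × Option δ) (κ × Option δ) ℝ) : Matrix (κ × δ) (κ × δ) ℝ :=
  bLL M - bLD M * (bDD M)⁻¹ * bDL M

theorem tens_option_apply_LL (O : Matrix κ κ ℝ) (M : Matrix (κ × Option δ) (κ × Option δ) ℝ) :
    bLL (tens (Option δ) O * M * (tens (Option δ) O)ᵀ) = tens δ O * bLL M * (tens δ O)ᵀ := by
  ext p q
  simp only [bLL, Matrix.submatrix_apply, mul_tens_transpose_apply, tens_mul_apply]

theorem tens_option_apply_LD (O : Matrix κ κ ℝ) (M : Matrix (κ × Option δ) (κ × Option δ) ℝ) :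
    bLD (tens (Option δ) O * M * (tens (Option δ) O)ᵀ) = tens δ O * bLD M * Oᵀ := by
  ext p q
  simp only [bLD, Matrix.submatrix_apply, mul_tens_transpose_apply, tens_mul_apply]
  rw [Matrix.mul_apply]
  simp only [tens_mul_apply, Matrix.transpose_apply, Matrix.submatrix_apply]

theorem tens_option_apply_DL (O : Matrix κ κ ℝ) (M : Matrix (κ × Option δ) (κ × Option δ) ℝ) :
    bDL (tens (Option δ) O * M * (tens (Option δ) O)ᵀ) = O * bDL M * (tens δ O)ᵀ := by
  ext p q
  simp only [bDL, Matrix.submatrix_apply, mul_tens_transpose_apply, tens_mul_apply]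
  refine Finset.sum_congr rfl fun k _ => ?_
  rw [Matrix.mul_apply]
  simp only [Matrix.submatrix_apply]

theorem tens_option_apply_DD (O : Matrix κ κ ℝ) (M : Matrix (κ × Option δ) (κ × Option δ) ℝ) :
    bDD (tens (Option δ) O * M * (tens (Option δ) O)ᵀ) = O * bDD M * Oᵀ := by
  ext p q
  simp only [bDD, Matrix.submatrix_apply, mul_tens_transpose_apply, tens_mul_apply]
  rw [Matrix.mul_apply]
  refine Finset.sum_congr rfl fun k _ => ?_
  rw [Matrix.mul_apply]
  simp only [Matrix.submatrix_apply, Matrix.transpose_apply]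

/-- equivariance of the deletion map -/
theorem del_conj {O : Matrix κ κ ℝ} (hO : O * Oᵀ = 1)
    (M : Matrix (κ × Option δ) (κ × Option δ) ℝ) :
    del (tens (Option δ) O * M * (tens (Option δ) O)ᵀ) = tens δ O * del M * (tens δ O)ᵀ := by
  have hO' : Oᵀ * O = 1 := mul_eq_one_comm.1 hO
  have hi : O⁻¹ = Oᵀ := Matrix.inv_eq_right_inv hO
  have hi' : (Oᵀ)⁻¹ = O := Matrix.inv_eq_right_inv hO'
  unfold del
  rw [tens_option_apply_LL, tens_option_apply_LD, tens_option_apply_DL, tens_option_apply_DD,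
    Matrix.mul_inv_rev, Matrix.mul_inv_rev, hi, hi']
  rw [mul_sub, sub_mul]
  congr 1
  calc tens δ O * bLD M * Oᵀ * (O * ((bDD M)⁻¹ * Oᵀ)) * (O * bDL M * (tens δ O)ᵀ)
      = tens δ O * (bLD M * (Oᵀ * O) * (bDD M)⁻¹ * (Oᵀ * O) * bDL M) * (tens δ O)ᵀ := by
        simp only [Matrix.mul_assoc]
    _ = tens δ O * (bLD M * (bDD M)⁻¹ * bDL M) * (tens δ O)ᵀ := by
        rw [hO', Matrix.mul_one, Matrix.mul_one]

theorem det_bDD_conj {O : Matrix κ κ ℝ} (hO : O * Oᵀ = 1)
    (M : Matrix (κ × Option δ) (κ × Option δ) ℝ) :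
    (bDD (tens (Option δ) O * M * (tens (Option δ) O)ᵀ)).det = (bDD M).det := by
  rw [tens_option_apply_DD, Matrix.det_mul, Matrix.det_mul]
  have h := congrArg Matrix.det hO
  rw [Matrix.det_mul, Matrix.det_one] at h
  linear_combination (bDD M).det * h

theorem symR_conj {ι : Type*} [Fintype ι] (A R : Matrix ι ι ℝ) :
    symR (A * R * Aᵀ) = A * symR R * Aᵀ := by
  unfold symR
  rw [Matrix.transpose_mul, Matrix.transpose_mul, Matrix.transpose_transpose,
    Matrix.mul_smul, Matrix.smul_mul, mul_add, add_mul, Matrix.mul_assoc A Rᵀ Aᵀ]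

theorem cx_mul {ι : Type*} [Fintype ι] (A B : Matrix ι ι ℝ) : cx (A * B) = cx A * cx B := by
  ext i j
  simp [Matrix.mul_apply]

theorem cx_transpose' {ι : Type*} (A : Matrix ι ι ℝ) : cx Aᵀ = (cx A)ᵀ := rfl

theorem cx_one {ι : Type*} [DecidableEq ι] : cx (1 : Matrix ι ι ℝ) = 1 := by
  ext i j
  by_cases h : i = j <;> simp [Matrix.one_apply, h]

/-- equivariance of the Cayley transform -/
theorem cay_conj {ι : Type} [Fintype ι] [DecidableEq ι] {A : Matrix ι ι ℝ} (hA : A * Aᵀ = 1)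
    (m : ℂ) (X : Matrix ι ι ℂ) : cay m (cx A * X * (cx A)ᵀ) = cx A * cay m X * (cx A)ᵀ := by
  have h1 : cx A * (cx A)ᵀ = 1 := by rw [← cx_transpose', ← cx_mul, hA, cx_one]
  have h2 : (cx A)ᵀ * cx A = 1 := mul_eq_one_comm.1 h1
  have hi : (cx A)⁻¹ = (cx A)ᵀ := Matrix.inv_eq_right_inv h1
  have hi' : ((cx A)ᵀ)⁻¹ = cx A := Matrix.inv_eq_right_inv h2
  have h3 : ∀ w : ℂ, cx A * X * (cx A)ᵀ - w • (1 : Matrix ι ι ℂ) =
      cx A * (X - w • (1 : Matrix ι ι ℂ)) * (cx A)ᵀ := by
    intro w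
    rw [mul_sub, sub_mul, Matrix.mul_smul, Matrix.smul_mul, Matrix.mul_one, h1]
  unfold cay
  rw [h3, h3, Matrix.mul_inv_rev, Matrix.mul_inv_rev, hi, hi']
  set Y := (X - m • (1 : Matrix ι ι ℂ))
  set Z := (X - (starRingEnd ℂ) m • (1 : Matrix ι ι ℂ))⁻¹
  calc cx A * Y * (cx A)ᵀ * (cx A * (Z * (cx A)ᵀ))
      = cx A * Y * ((cx A)ᵀ * cx A) * Z * (cx A)ᵀ := by simp only [Matrix.mul_assoc]
    _ = cx A * (Y * Z) * (cx A)ᵀ := by rw [h2]; simp only [Matrix.mul_assoc, Matrix.mul_one]

theorem cx_mem_unitary {ι : Type} [Fintype ι] [DecidableEq ι] {A : Matrix ι ι ℝ}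
    (hA : A * Aᵀ = 1) : cx A ∈ Matrix.unitaryGroup ι ℂ := by
  rw [Matrix.mem_unitaryGroup_iff, Matrix.star_eq_conjTranspose]
  have h : (cx A)ᴴ = (cx A)ᵀ := by
    ext i j
    simp [Matrix.conjTranspose_apply]
  rw [h, ← cx_transpose', ← cx_mul, hA, cx_one]

theorem conjSymU_coe {ι : Type} [Fintype ι] [DecidableEq ι] {U : Matrix ι ι ℂ}
    (hU : U ∈ Matrix.unitaryGroup ι ℂ) (S : SymU ι) : (conjSymU U S).1 = U * S.1 * Uᵀ :=
  toSymU_coe (F.conj_mem_symU hU S.2)

theorem cayS_conj {ι : Type} [Fintype ι] [DecidableEq ι] {A : Matrix ι ι ℝ} (hA : A * Aᵀ = 1)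
    {m : ℂ} (hm : 0 < m.im) (R : Matrix ι ι ℝ) :
    cayS m (A * R * Aᵀ) = conjSymU (cx A) (cayS m R) := by
  apply Subtype.ext
  rw [cayS_coe hm, conjSymU_coe (cx_mem_unitary hA), cayS_coe hm, symR_conj, ← cay_conj hA,
    cx_mul, cx_mul, cx_transpose']

theorem continuous_conjSymU {ι : Type} [Fintype ι] [DecidableEq ι] {U : Matrix ι ι ℂ}
    (hU : U ∈ Matrix.unitaryGroup ι ℂ) : Continuous (conjSymU (ι := ι) U) := by
  rw [continuous_induced_rng]
  have h : (Subtype.val ∘ conjSymU (ι := ι) U) = fun S => U * S.1 * Uᵀ := by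
    funext S
    exact conjSymU_coe hU S
  rw [h]
  exact (continuous_const.mul continuous_subtype_val).mul continuous_const

theorem conjSymU_mul {ι : Type} [Fintype ι] [DecidableEq ι] {U V : Matrix ι ι ℂ}
    (hU : U ∈ Matrix.unitaryGroup ι ℂ) (hV : V ∈ Matrix.unitaryGroup ι ℂ) (S : SymU ι) :
    conjSymU (U * V) S = conjSymU U (conjSymU V S) := by
  apply Subtype.ext
  rw [conjSymU_coe (mul_mem hU hV), conjSymU_coe hU, conjSymU_coe hV, Matrix.transpose_mul]
  simp only [Matrix.mul_assoc]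

/-! ### Continuity of the deletion map and the truncated test function -/

theorem continuousAt_matmul {X α β γ : Type*} [TopologicalSpace X] [Fintype β]
    {f : X → Matrix α β ℝ} {g : X → Matrix β γ ℝ} {x : X} (hf : ContinuousAt f x)
    (hg : ContinuousAt g x) : ContinuousAt (fun y => f y * g y) x := by
  have h : Continuous (fun p : Matrix α β ℝ × Matrix β γ ℝ => p.1 * p.2) :=
    continuous_fst.matrix_mul continuous_snd
  exact ContinuousAt.comp (f := fun y => (f y, g y)) h.continuousAt (hf.prodMk hg)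

theorem continuousAt_del {M : Matrix (κ × Option δ) (κ × Option δ) ℝ} (h : (bDD M).det ≠ 0) :
    ContinuousAt (del : Matrix (κ × Option δ) (κ × Option δ) ℝ → _) M := by
  have h1 : Continuous (bLL : Matrix (κ × Option δ) (κ × Option δ) ℝ → _) :=
    continuous_id.matrix_submatrix _ _
  have h2 : Continuous (bLD : Matrix (κ × Option δ) (κ × Option δ) ℝ → _) :=
    continuous_id.matrix_submatrix _ _
  have h3 : Continuous (bDL : Matrix (κ × Option δ) (κ × Option δ) ℝ → _) :=
    continuous_id.matrix_submatrix _ _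
  have h4 : Continuous (bDD : Matrix (κ × Option δ) (κ × Option δ) ℝ → _) :=
    continuous_id.matrix_submatrix _ _
  have h5 : ContinuousAt (fun N : Matrix (κ × Option δ) (κ × Option δ) ℝ => (bDD N)⁻¹) M :=
    continuousAt_matrix_inv_real h4.continuousAt h
  have h6 : ContinuousAt (fun N : Matrix (κ × Option δ) (κ × Option δ) ℝ =>
      bLD N * (bDD N)⁻¹ * bDL N) M :=
    continuousAt_matmul (continuousAt_matmul h2.continuousAt h5) h3.continuousAt
  exact h1.continuousAt.sub h6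

/-- the truncated test function on star matrices -/
def tst (c : ℝ) (m : ℂ) (F : SymU (κ × δ) → ℝ)
    (M : Matrix (κ × Option δ) (κ × Option δ) ℝ) : ℝ :=
  min 1 (|(bDD M).det| / c) * F (cayS m (del M))

theorem continuous_tst {c : ℝ} (hc : 0 < c) {m : ℂ} (hm : 0 < m.im) (F : C(SymU (κ × δ), ℝ))
    {C : ℝ} (hC : ∀ S, |F S| ≤ C) : Continuous (tst c m (F : SymU (κ × δ) → ℝ)) := by
  have hdet : Continuous (fun M : Matrix (κ × Option δ) (κ × Option δ) ℝ =>
      min 1 (|(bDD M).det| / c)) := by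
    have h4 : Continuous (bDD : Matrix (κ × Option δ) (κ × Option δ) ℝ → _) :=
      continuous_id.matrix_submatrix _ _
    exact continuous_const.min ((h4.matrix_det.abs).div_const c)
  rw [continuous_iff_continuousAt]
  intro M
  by_cases h : (bDD M).det = 0
  · have h0 : tst c m (F : SymU (κ × δ) → ℝ) M = 0 := by
      unfold tst
      rw [h]
      simp
    unfold ContinuousAt
    rw [h0]
    have h1 : Tendsto (fun N : Matrix (κ × Option δ) (κ × Option δ) ℝ =>
        min 1 (|(bDD N).det| / c) * C) (𝓝 M) (𝓝 0) := by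
      have := (hdet.tendsto M).mul_const C
      rw [h] at this
      simpa using this
    refine squeeze_zero_norm (fun N => ?_) h1
    unfold tst
    rw [Real.norm_eq_abs, abs_mul]
    have h2 : 0 ≤ min 1 (|(bDD N).det| / c) := le_min zero_le_one (by positivity)
    rw [abs_of_nonneg h2]
    exact mul_le_mul_of_nonneg_left (hC _) h2
  · have h1 : ContinuousAt (fun N : Matrix (κ × Option δ) (κ × Option δ) ℝ =>
        F (cayS m (del N))) M :=
      (F.continuous.comp (continuous_cayS hm)).continuousAt.comp (continuousAt_del h)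
    exact hdet.continuousAt.mul h1

theorem abs_tst_le {c : ℝ} (hc : 0 < c) {m : ℂ} {F : SymU (κ × δ) → ℝ} {C : ℝ}
    (hC : ∀ S, |F S| ≤ C) (M : Matrix (κ × Option δ) (κ × Option δ) ℝ) : |tst c m F M| ≤ C := by
  unfold tst
  have h2 : 0 ≤ min 1 (|(bDD M).det| / c) := le_min zero_le_one (by positivity)
  rw [abs_mul, abs_of_nonneg h2]
  calc min 1 (|(bDD M).det| / c) * |F (cayS m (del M))| ≤ 1 * |F (cayS m (del M))| :=
        mul_le_mul_of_nonneg_right (min_le_left _ _) (abs_nonneg _)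
    _ ≤ C := by rw [one_mul]; exact hC _

theorem tst_conj {c : ℝ} {m : ℂ} (hm : 0 < m.im) (F : SymU (κ × δ) → ℝ) {O : Matrix κ κ ℝ}
    (hO : O * Oᵀ = 1) (M : Matrix (κ × Option δ) (κ × Option δ) ℝ) :
    tst c m F (tens (Option δ) O * M * (tens (Option δ) O)ᵀ) =
      tst c m (fun S => F (conjSymU (cx (tens δ O)) S)) M := by
  unfold tst
  rw [det_bDD_conj hO, del_conj hO, cayS_conj (tens_mul_transpose hO) hm]

end

end Vale.Agent.P156.H490
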