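import Vale.Agent.P156.B.Samp
import Vale.Agent.P156.H490.Prob

/-! FE11 (two defects), probability core: conditional resampling of one star, marginals, and the
probability of two distinct defects. -/

open Matrix Finset

namespace Vale.Agent.P156.H490.TD

open Vale.Agent.P156.B

noncomputable section

variable {n d K : ℕ}

/-- The sample space. -/
abbrev Om (n d K : ℕ) : Type := SimpleGraph (Fin n) × StarPos n d K

/-- Single stars. -/
abbrev St (n d : ℕ) : Type := Fin n × (Fin d → Fin n)

open Classical in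
/-- indicator -/
def ind (P : Prop) : ℝ := if P then 1 else 0

lemma ind_nonneg (P : Prop) : 0 ≤ ind P := by
  unfold ind; split_ifs <;> norm_num

lemma ind_le_one (P : Prop) : ind P ≤ 1 := by
  unfold ind; split_ifs <;> norm_num

lemma ind_true {P : Prop} (h : P) : ind P = 1 := by
  unfold ind; rw [if_pos h]

lemma ind_false {P : Prop} (h : ¬ P) : ind P = 0 := by
  unfold ind; rw [if_neg h]

lemma ind_mono {P Q : Prop} (h : P → Q) : ind P ≤ ind Q := by
  by_cases hP : P
  · rw [ind_true hP, ind_true (h hP)]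
  · rw [ind_false hP]; exact ind_nonneg Q

lemma ind_congr {P Q : Prop} (h : P ↔ Q) : ind P = ind Q :=
  le_antisymm (ind_mono h.1) (ind_mono h.2)

lemma ind_and (P Q : Prop) : ind (P ∧ Q) = ind P * ind Q := by
  by_cases hP : P <;> by_cases hQ : Q
  · rw [ind_true hP, ind_true hQ, ind_true ⟨hP, hQ⟩, mul_one]
  · rw [ind_false hQ, ind_false (fun h : P ∧ Q => hQ h.2), mul_zero]
  · rw [ind_false hP, ind_false (fun h : P ∧ Q => hP h.1), zero_mul]
  · rw [ind_false hP, ind_false (fun h : P ∧ Q => hP h.1), zero_mul]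

lemma prob_eq {α : Type*} (s : Finset α) (P : α → Prop) :
    prob s P = avg s (fun a => ind (P a)) := by
  classical
  unfold prob
  exact avg_congr fun a _ => by unfold ind; congr

lemma ind_ex {ι : Type*} [Fintype ι] (P : ι → Prop) : ind (∃ i, P i) ≤ ∑ i, ind (P i) := by
  by_cases h : ∃ i, P i
  · rw [ind_true h]
    obtain ⟨i, hi⟩ := h
    have := Finset.single_le_sum (f := fun i => ind (P i)) (fun i _ => ind_nonneg _)
      (Finset.mem_univ i)
    simp only [ind_true hi] at this
    exact this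
  · rw [ind_false h]
    exact Finset.sum_nonneg fun i _ => ind_nonneg _

lemma ind_or (P Q : Prop) : ind (P ∨ Q) ≤ ind P + ind Q := by
  by_cases hP : P
  · rw [ind_true (Or.inl hP), ind_true hP]
    have := ind_nonneg Q
    linarith
  · by_cases hQ : Q
    · rw [ind_true (Or.inr hQ), ind_true hQ]
      have := ind_nonneg P
      linarith
    · rw [ind_false (fun h : P ∨ Q => h.elim hP hQ)]
      exact add_nonneg (ind_nonneg _) (ind_nonneg _)

/-- **Conditional resampling**: `f` does not depend on star `i`, and given the rest the mean of `g`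
over star `i` is at most `κ` whenever `f ≠ 0`. -/
theorem avg_mul_le (i : Fin K) {f g : Om n d K → ℝ} {κ : ℝ}
    (hf : ∀ ω ∈ WW n d K, ∀ t ∈ stars d ω.1, f (upd ω i t) = f ω)
    (hf0 : ∀ ω ∈ WW n d K, 0 ≤ f ω)
    (hg : ∀ ω ∈ WW n d K, f ω ≠ 0 → avg (stars d ω.1) (fun t => g (upd ω i t)) ≤ κ) :
    avg (WW n d K) (fun ω => f ω * g ω) ≤ κ * avg (WW n d K) f := by
  rw [← avg_resample i (fun ω => f ω * g ω), ← avg_mul_left]
  refine avg_mono fun ω hω => ?_
  have h1 : avg (stars d ω.1) (fun t => f (upd ω i t) * g (upd ω i t)) =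
      f ω * avg (stars d ω.1) (fun t => g (upd ω i t)) := by
    rw [← avg_mul_left]
    refine avg_congr fun t ht => ?_
    rw [hf ω hω t ht]
  rw [h1]
  by_cases h0 : f ω = 0
  · rw [h0]; simp
  · rw [mul_comm]
    exact mul_le_mul_of_nonneg_right (hg ω hω h0) (hf0 ω hω)

lemma st_upd_self (ω : Om n d K) (i : Fin K) (t : St n d) : st (upd ω i t) i = t := by
  simp [upd]

lemma st_upd_ne (ω : Om n d K) {i j : Fin K} (h : j ≠ i) (t : St n d) :
    st (upd ω i t) j = st ω j := by
  simp [upd, Function.update_of_ne h]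

lemma upd_fst (ω : Om n d K) (i : Fin K) (t : St n d) : (upd ω i t).1 = ω.1 := rfl

/-- Marginal of one star. -/
lemma avg_WW_one (hn : 0 < n) (i : Fin K) (f : SimpleGraph (Fin n) → St n d → ℝ) :
    avg (WW n d K) (fun ω => f ω.1 (st ω i)) =
      avg (regularGraphs n d) (fun G => avg (stars d G) (f G)) := by
  rw [avg_WW_eq]
  refine avg_congr fun G hG => ?_
  have hG' := B.mem_regularGraphs.1 hG
  have h1 := avg_pi_marg (ι := Fin K) (ι' := Unit) (stars_nonempty hG' hn) (κ := fun _ => i)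
    (fun a b _ => Subsingleton.elim a b) (fun u => f G (u ()))
  have h3 : avg (Fintype.piFinset fun _ : Unit => stars d G) (fun u => f G (u ())) =
      avg (stars d G) (f G) := by
    unfold avg
    congr 1
    · refine Finset.sum_nbij' (fun u => u ()) (fun t _ => t) ?_ ?_ ?_ ?_ ?_
      · intro u hu
        exact Fintype.mem_piFinset.1 hu ()
      · intro t ht
        exact Fintype.mem_piFinset.2 fun _ => ht
      · intro u _
        rfl
      · intro t _
        rfl
      · intro u _
        rfl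
    · rw [Fintype.card_piFinset]
      simp
  rw [← h3, ← h1]
  rfl

/-- Two different stars are independent given the graph. -/
lemma avg_WW_two (hn : 0 < n) {i j : Fin K} (hij : i ≠ j)
    (f g : SimpleGraph (Fin n) → St n d → ℝ) :
    avg (WW n d K) (fun ω => f ω.1 (st ω i) * g ω.1 (st ω j)) =
      avg (regularGraphs n d) (fun G => avg (stars d G) (f G) * avg (stars d G) (g G)) := by
  rw [avg_WW_eq]
  refine avg_congr fun G hG => ?_
  have hG' := B.mem_regularGraphs.1 hG
  have hinj : Function.Injective (Sum.elim (fun _ : Unit => i) (fun _ : Unit => j)) := by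
    rintro (a | a) (b | b) h
    · rfl
    · exact absurd h hij
    · exact absurd h.symm hij
    · rfl
  have h1 := avg_pi_mul (ι := Fin K) (ι₁ := Unit) (ι₂ := Unit) (stars_nonempty hG' hn) hinj
    (fun u => f G (u ())) (fun u => g G (u ()))
  have h3 : ∀ f : St n d → ℝ, avg (Fintype.piFinset fun _ : Unit => stars d G) (fun u => f (u ())) =
      avg (stars d G) f := by
    intro f
    unfold avg
    congr 1
    · refine Finset.sum_nbij' (fun u => u ()) (fun t _ => t) ?_ ?_ ?_ ?_ ?_
      · intro u hu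
        exact Fintype.mem_piFinset.1 hu ()
      · intro t ht
        exact Fintype.mem_piFinset.2 fun _ => ht
      · intro u _
        rfl
      · intro t _
        rfl
      · intro u _
        rfl
    · rw [Fintype.card_piFinset]
      simp
  rw [h3, h3] at h1
  rw [← h1]
  rfl

/-! ### Two distinct defects -/

section Defects

/-- Two distinct defects among isolated defects `I` and couplings `Q`. -/
def Two {S : Type*} (I : S → Prop) (Q : S → S → Prop) (s : Fin K → S) : Prop :=
  (∃ i j, i ≠ j ∧ I (s i) ∧ I (s j)) ∨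
  (∃ i j k, k ≠ i ∧ k ≠ j ∧ I (s i) ∧ Q (s j) (s k)) ∨
  (∃ i j k l, j ≠ i ∧ l ≠ i ∧ l ≠ j ∧ l ≠ k ∧ Q (s i) (s j) ∧ Q (s k) (s l))

/-- If there are no two distinct defects, then one of the stars `1, …, d` is untouched. -/
theorem exists_untouched {S : Type*} {I : S → Prop} {Q : S → S → Prop}
    (hQ : ∀ a b, Q a b → Q b a) (hd : 3 ≤ d) (s : Fin (d + 1) → S) (h : ¬ Two I Q s) :
    ∃ k : Fin d, ¬ I (s k.succ) ∧ ∀ j, j ≠ k.succ → ¬ Q (s k.succ) (s j) := by
  by_contra hcon
  push Not at hcon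
  have key : ∀ k : Fin d, I (s k.succ) ∨ ∃ j, j ≠ k.succ ∧ Q (s k.succ) (s j) := by
    intro k
    by_cases hI : I (s k.succ)
    · exact Or.inl hI
    · exact Or.inr (hcon k hI)
  -- three different indices
  let a : Fin d := ⟨0, by omega⟩
  let b : Fin d := ⟨1, by omega⟩
  let c : Fin d := ⟨2, by omega⟩
  have hab : a.succ ≠ b.succ := by
    intro h
    have := congrArg Fin.val (Fin.succ_injective _ h)
    simp [a, b] at this
  have hac : a.succ ≠ c.succ := by
    intro h
    have := congrArg Fin.val (Fin.succ_injective _ h)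
    simp [a, c] at this
  have hbc : b.succ ≠ c.succ := by
    intro h
    have := congrArg Fin.val (Fin.succ_injective _ h)
    simp [b, c] at this
  -- an isolated defect and another one
  have h1 : ∀ x y : Fin (d + 1), x ≠ y → I (s x) →
      (I (s y) ∨ ∃ j, j ≠ y ∧ Q (s y) (s j)) → False := by
    intro x y hxy hx hy
    rcases hy with hy | ⟨j, hj, hQj⟩
    · exact h (Or.inl ⟨x, y, hxy, hx, hy⟩)
    · -- Q (y, j), y ≠ x: resample y
      exact h (Or.inr (Or.inl ⟨x, j, y, hxy.symm, hj.symm, hx, hQ _ _ hQj⟩))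
  rcases key a with ha | ⟨ja, hja, hQa⟩
  · exact h1 _ _ hab ha (key b)
  rcases key b with hb | ⟨jb, hjb, hQb⟩
  · exact h1 _ _ hab.symm hb (key a)
  rcases key c with hc | ⟨jc, hjc, hQc⟩
  · exact h1 _ _ hac.symm hc (key a)
  -- three couplings {a, ja}, {b, jb}, {c, jc}
  -- c is not in {a, ja} or c is not in {b, jb}, or c = ja = jb
  by_cases e1 : c.succ = ja
  · by_cases e2 : c.succ = jb
    · -- couplings {a, c} and {b, c}: b is not in {a, c}
      refine h (Or.inr (Or.inr ⟨a.succ, ja, jb, b.succ, hja, hab.symm, ?_, ?_, hQa, hQ _ _ hQb⟩))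
      · rw [← e1]; exact hbc
      · rw [← e2]; exact hbc
    · -- c ∉ {b, jb}: couplings {b, jb} and {jc, c}
      exact h (Or.inr (Or.inr ⟨b.succ, jb, jc, c.succ, hjb, hbc.symm, e2, hjc.symm, hQb,
        hQ _ _ hQc⟩))
  · exact h (Or.inr (Or.inr ⟨a.succ, ja, jc, c.succ, hja, hac.symm, e1, hjc.symm, hQa,
      hQ _ _ hQc⟩))

variable {I : SimpleGraph (Fin n) → St n d → Prop}
  {Q : SimpleGraph (Fin n) → St n d → St n d → Prop} {L : SimpleGraph (Fin n) → St n d → Prop}
  {κ p : ℝ}

/-- Probability of two distinct defects. `L` holds for all stars; given a star with `L`, the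
probability that a further star is coupled with it is at most `κ`. -/
theorem avg_two_le (hn : 0 < n) (hκ : 0 ≤ κ)
    (hQ : ∀ G ∈ regularGraphs n d, ∀ s ∈ stars d G, L G s →
      avg (stars d G) (fun t => ind (Q G s t)) ≤ κ)
    (hI : avg (regularGraphs n d) (fun G => avg (stars d G) (fun t => ind (I G t)) ^ 2) ≤ p) :
    avg (WW n d K) (fun ω => ind (Two (I ω.1) (Q ω.1) (st ω) ∧ ∀ i, L ω.1 (st ω i))) ≤
      (K : ℝ) ^ 2 * p + (K : ℝ) ^ 3 * (κ ^ 2 + p) + (K : ℝ) ^ 4 * κ ^ 2 := by
  have hp : 0 ≤ p := le_trans (avg_nonneg fun G _ => sq_nonneg _) hI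
  have hmem : ∀ ω ∈ WW n d K, ω.1 ∈ regularGraphs n d := fun ω hω =>
    B.mem_regularGraphs.2 (mem_WW.1 hω).1
  have hst : ∀ ω ∈ WW n d K, ∀ i, st ω i ∈ stars d ω.1 := fun ω hω i =>
    mem_mstars.1 (mem_WW.1 hω).2 i
  -- a single coupling
  have hc1 : ∀ i j : Fin K, j ≠ i → avg (WW n d K)
      (fun ω => ind (L ω.1 (st ω i)) * ind (Q ω.1 (st ω i) (st ω j))) ≤ κ := by
    intro i j hij
    refine (avg_mul_le j (κ := κ) ?_ (fun ω _ => ind_nonneg _) ?_).trans ?_
    · intro ω _ t _
      rw [st_upd_ne _ hij.symm, upd_fst]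
    · intro ω hω h0
      have hL : L ω.1 (st ω i) := by
        by_contra h; exact h0 (ind_false h)
      refine le_trans (le_of_eq ?_) (hQ ω.1 (hmem ω hω) (st ω i) (hst ω hω i) hL)
      refine avg_congr fun t _ => ?_
      rw [st_upd_ne _ hij.symm, upd_fst, st_upd_self]
    · refine mul_le_of_le_one_right hκ ?_
      exact avg_le_of_le zero_le_one fun ω _ => ind_le_one _
  -- the pieces
  have hA : ∀ i j : Fin K, i ≠ j → avg (WW n d K)
      (fun ω => ind (I ω.1 (st ω i)) * ind (I ω.1 (st ω j))) ≤ p := by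
    intro i j hij
    rw [avg_WW_two hn hij (fun G t => ind (I G t)) (fun G t => ind (I G t))]
    refine le_trans (le_of_eq ?_) hI
    refine avg_congr fun G _ => ?_
    ring
  have hI1 : ∀ i : Fin K, κ * avg (WW n d K) (fun ω => ind (I ω.1 (st ω i))) ≤ κ ^ 2 + p := by
    intro i
    rw [avg_WW_one hn i (fun G t => ind (I G t)), ← avg_mul_left]
    refine le_trans (avg_mono (Ψ := fun G => κ ^ 2 +
      avg (stars d G) (fun t => ind (I G t)) ^ 2) fun G _ => ?_) ?_
    · nlinarith [sq_nonneg (κ - avg (stars d G) (fun t => ind (I G t))),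
        sq_nonneg (κ + avg (stars d G) (fun t => ind (I G t)))]
    · rw [avg_add]
      exact add_le_add (avg_const_le _ (sq_nonneg κ)) hI
  have hB : ∀ i j k : Fin K, k ≠ i → k ≠ j → avg (WW n d K)
      (fun ω => (ind (I ω.1 (st ω i)) * ind (L ω.1 (st ω j))) * ind (Q ω.1 (st ω j) (st ω k))) ≤
        κ ^ 2 + p := by
    intro i j k hki hkj
    refine (avg_mul_le k (κ := κ) ?_ (fun ω _ => mul_nonneg (ind_nonneg _) (ind_nonneg _))
      ?_).trans ?_
    · intro ω _ t _
      rw [st_upd_ne _ hki.symm, st_upd_ne _ hkj.symm, upd_fst]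
    · intro ω hω h0
      have hL : L ω.1 (st ω j) := by
        by_contra h
        rw [ind_false h, mul_zero] at h0
        exact h0 rfl
      refine le_trans (le_of_eq ?_) (hQ ω.1 (hmem ω hω) (st ω j) (hst ω hω j) hL)
      refine avg_congr fun t _ => ?_
      rw [st_upd_ne _ hkj.symm, upd_fst, st_upd_self]
    · refine le_trans (mul_le_mul_of_nonneg_left (avg_mono fun ω _ => ?_) hκ) (hI1 i)
      exact mul_le_of_le_one_right (ind_nonneg _) (ind_le_one _)
  have hC : ∀ i j k l : Fin K, l ≠ i → l ≠ j → l ≠ k → i ≠ j → avg (WW n d K)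
      (fun ω => (ind (L ω.1 (st ω i)) * ind (Q ω.1 (st ω i) (st ω j)) * ind (L ω.1 (st ω k))) *
        ind (Q ω.1 (st ω k) (st ω l))) ≤ κ ^ 2 := by
    intro i j k l hli hlj hlk hij
    refine (avg_mul_le l (κ := κ) ?_ (fun ω _ => mul_nonneg (mul_nonneg (ind_nonneg _)
      (ind_nonneg _)) (ind_nonneg _)) ?_).trans ?_
    · intro ω _ t _
      rw [st_upd_ne _ hli.symm, st_upd_ne _ hlj.symm, st_upd_ne _ hlk.symm, upd_fst]
    · intro ω hω h0
      have hL : L ω.1 (st ω k) := by
        by_contra h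
        rw [ind_false h, mul_zero] at h0
        exact h0 rfl
      refine le_trans (le_of_eq ?_) (hQ ω.1 (hmem ω hω) (st ω k) (hst ω hω k) hL)
      refine avg_congr fun t _ => ?_
      rw [st_upd_ne _ hlk.symm, upd_fst, st_upd_self]
    · rw [pow_two]
      refine mul_le_mul_of_nonneg_left (le_trans (avg_mono fun ω _ => ?_) (hc1 i j hij.symm)) hκ
      exact mul_le_of_le_one_right (mul_nonneg (ind_nonneg _) (ind_nonneg _)) (ind_le_one _)
  -- the sums
  let F2 : Fin K × Fin K → Om n d K → ℝ := fun q ω =>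
    if q.1 ≠ q.2 then ind (I ω.1 (st ω q.1)) * ind (I ω.1 (st ω q.2)) else 0
  let F3 : Fin K × Fin K × Fin K → Om n d K → ℝ := fun q ω =>
    if q.2.2 ≠ q.1 ∧ q.2.2 ≠ q.2.1 then
      (ind (I ω.1 (st ω q.1)) * ind (L ω.1 (st ω q.2.1))) *
        ind (Q ω.1 (st ω q.2.1) (st ω q.2.2)) else 0
  let F4 : Fin K × Fin K × Fin K × Fin K → Om n d K → ℝ := fun q ω =>
    if q.2.1 ≠ q.1 ∧ q.2.2.2 ≠ q.1 ∧ q.2.2.2 ≠ q.2.1 ∧ q.2.2.2 ≠ q.2.2.1 then
      (ind (L ω.1 (st ω q.1)) * ind (Q ω.1 (st ω q.1) (st ω q.2.1)) *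
        ind (L ω.1 (st ω q.2.2.1))) * ind (Q ω.1 (st ω q.2.2.1) (st ω q.2.2.2)) else 0
  have n2 : ∀ q ω, 0 ≤ F2 q ω := by
    intro q ω
    simp only [F2]
    split_ifs
    · exact mul_nonneg (ind_nonneg _) (ind_nonneg _)
    · exact le_rfl
  have n3 : ∀ q ω, 0 ≤ F3 q ω := by
    intro q ω
    simp only [F3]
    split_ifs
    · exact mul_nonneg (mul_nonneg (ind_nonneg _) (ind_nonneg _)) (ind_nonneg _)
    · exact le_rfl
  have n4 : ∀ q ω, 0 ≤ F4 q ω := by
    intro q ω
    simp only [F4]
    split_ifs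
    · exact mul_nonneg (mul_nonneg (mul_nonneg (ind_nonneg _) (ind_nonneg _)) (ind_nonneg _))
        (ind_nonneg _)
    · exact le_rfl
  have b2 : ∀ q, avg (WW n d K) (F2 q) ≤ p := by
    rintro ⟨i, j⟩
    by_cases h : i ≠ j
    · simp only [F2, if_pos h]
      exact hA i j h
    · simp only [F2, if_neg h]
      exact avg_le_of_le hp fun _ _ => hp
  have b3 : ∀ q, avg (WW n d K) (F3 q) ≤ κ ^ 2 + p := by
    rintro ⟨i, j, k⟩
    by_cases h : k ≠ i ∧ k ≠ j
    · simp only [F3, if_pos h]
      exact hB i j k h.1 h.2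
    · simp only [F3, if_neg h]
      exact avg_le_of_le (by positivity) fun _ _ => by positivity
  have b4 : ∀ q, avg (WW n d K) (F4 q) ≤ κ ^ 2 := by
    rintro ⟨i, j, k, l⟩
    by_cases h : j ≠ i ∧ l ≠ i ∧ l ≠ j ∧ l ≠ k
    · simp only [F4, if_pos h]
      exact hC i j k l h.2.1 h.2.2.1 h.2.2.2 h.1.symm
    · simp only [F4, if_neg h]
      exact avg_le_of_le (by positivity) fun _ _ => by positivity
  have hpt : ∀ ω ∈ WW n d K, ind (Two (I ω.1) (Q ω.1) (st ω) ∧ ∀ i, L ω.1 (st ω i)) ≤
      (∑ q, F2 q ω + ∑ q, F3 q ω) + ∑ q, F4 q ω := by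
    intro ω _
    have s2 : 0 ≤ ∑ q, F2 q ω := Finset.sum_nonneg fun q _ => n2 q ω
    have s3 : 0 ≤ ∑ q, F3 q ω := Finset.sum_nonneg fun q _ => n3 q ω
    have s4 : 0 ≤ ∑ q, F4 q ω := Finset.sum_nonneg fun q _ => n4 q ω
    by_cases h : Two (I ω.1) (Q ω.1) (st ω) ∧ ∀ i, L ω.1 (st ω i)
    · rw [ind_true h]
      obtain ⟨h1, hL⟩ := h
      rcases h1 with ⟨i, j, hij, h1, h2⟩ | ⟨i, j, k, hki, hkj, h1, h2⟩ |
        ⟨i, j, k, l, hji, hli, hlj, hlk, h1, h2⟩
      · have := Finset.single_le_sum (f := fun q => F2 q ω) (fun q _ => n2 q ω)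
          (Finset.mem_univ (i, j))
        have e : F2 (i, j) ω = 1 := by
          simp only [F2]
          rw [if_pos hij, ind_true h1, ind_true h2, mul_one]
        rw [e] at this
        linarith
      · have := Finset.single_le_sum (f := fun q => F3 q ω) (fun q _ => n3 q ω)
          (Finset.mem_univ (i, j, k))
        have e : F3 (i, j, k) ω = 1 := by
          simp only [F3]
          rw [if_pos ⟨hki, hkj⟩, ind_true h1, ind_true h2, ind_true (hL j), mul_one, mul_one]
        rw [e] at this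
        linarith
      · have := Finset.single_le_sum (f := fun q => F4 q ω) (fun q _ => n4 q ω)
          (Finset.mem_univ (i, j, k, l))
        have e : F4 (i, j, k, l) ω = 1 := by
          simp only [F4]
          rw [if_pos ⟨hji, hli, hlj, hlk⟩, ind_true h1, ind_true h2, ind_true (hL i),
            ind_true (hL k), mul_one, mul_one, mul_one]
        rw [e] at this
        linarith
    · rw [ind_false h]
      positivity
  refine (avg_mono hpt).trans ?_
  rw [avg_add, avg_add, avg_sum, avg_sum, avg_sum]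
  refine add_le_add (add_le_add ?_ ?_) ?_
  · refine (Finset.sum_le_sum fun q _ => b2 q).trans (le_of_eq ?_)
    rw [Finset.sum_const, Finset.card_univ, Fintype.card_prod, Fintype.card_fin, nsmul_eq_mul]
    push_cast
    ring
  · refine (Finset.sum_le_sum fun q _ => b3 q).trans (le_of_eq ?_)
    rw [Finset.sum_const, Finset.card_univ, Fintype.card_prod, Fintype.card_prod,
      Fintype.card_fin, nsmul_eq_mul]
    push_cast
    ring
  · refine (Finset.sum_le_sum fun q _ => b4 q).trans (le_of_eq ?_)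
    rw [Finset.sum_const, Finset.card_univ, Fintype.card_prod, Fintype.card_prod,
      Fintype.card_prod, Fintype.card_fin, nsmul_eq_mul]
    push_cast
    ring

end Defects

end

end Vale.Agent.P156.H490.TD
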