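import Vale.Agent.P156.H490.TDa
import Vale.Agent.P156.FE.Spec

/-! FE11 (two defects): collisions conditionally on star `0`, and the probability that `K` stars
are not typical at a given scale, from the two-star first moment. -/

open Matrix Finset

namespace Vale.Agent.P156.H490.TD

open Vale.Agent.P156.B Vale.Agent.P156.FE

noncomputable section

variable {n d K : ℕ}

/-- Collisions, conditionally on star `a`. -/
theorem avg_bad_le (hn : 0 < n) (a : Fin K) {f : Om n d K → ℝ}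
    (hf : ∀ i, i ≠ a → ∀ ω ∈ WW n d K, ∀ t ∈ stars d ω.1, f (upd ω i t) = f ω)
    (hf0 : ∀ ω ∈ WW n d K, 0 ≤ f ω) :
    avg (WW n d K) (fun ω => f ω * ind (ω ∉ ZZs n d K)) ≤
      ((K : ℝ) ^ 2 * (d + 1) ^ 2 / n) * avg (WW n d K) f := by
  have hn' : (0 : ℝ) < n := by exact_mod_cast hn
  let F : (Fin K × Fin K) × (Option (Fin d) × Option (Fin d)) → Om n d K → ℝ := fun q ω =>
    if q.1.2 ≠ q.1.1 ∧ q.1.2 ≠ a then
      f ω * ind (B.pos (st ω q.1.1) q.2.1 = B.pos (st ω q.1.2) q.2.2) else 0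
  have hF0 : ∀ q, ∀ ω ∈ WW n d K, 0 ≤ F q ω := by
    intro q ω hω
    simp only [F]
    split_ifs
    · exact mul_nonneg (hf0 ω hω) (ind_nonneg _)
    · exact le_rfl
  have hav : 0 ≤ avg (WW n d K) f := avg_nonneg hf0
  have hFb : ∀ q, avg (WW n d K) (F q) ≤ 1 / n * avg (WW n d K) f := by
    rintro ⟨⟨i, j⟩, ⟨o, o'⟩⟩
    by_cases h : j ≠ i ∧ j ≠ a
    · simp only [F, if_pos h]
      refine avg_mul_le j (hf j h.2) hf0 fun ω hω _ => ?_
      have hG := (mem_WW.1 hω).1
      have e : avg (stars d ω.1) (fun t => ind (B.pos (st (upd ω j t) i) o =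
          B.pos (st (upd ω j t) j) o')) = avg (stars d ω.1) (fun t =>
            (fun v => ind (B.pos (st ω i) o = v)) (B.pos t o')) := by
        refine avg_congr fun t _ => ?_
        rw [st_upd_ne _ h.1.symm, st_upd_self]
      rw [e, avg_stars_pos hG o' (fun v => ind (B.pos (st ω i) o = v))]
      refine div_le_div_of_nonneg_right (le_of_eq ?_) hn'.le
      rw [Finset.sum_eq_single (B.pos (st ω i) o)]
      · exact ind_true rfl
      · intro v _ hv
        exact ind_false fun h => hv h.symm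
      · intro h; exact absurd (Finset.mem_univ _) h
    · simp only [F, if_neg h]
      exact le_trans (avg_le_of_le le_rfl fun _ _ => le_rfl) (by positivity)
  have hpt : ∀ ω ∈ WW n d K, f ω * ind (ω ∉ ZZs n d K) ≤ ∑ q, F q ω := by
    intro ω hω
    have hs : 0 ≤ ∑ q, F q ω := Finset.sum_nonneg fun q _ => hF0 q ω hω
    by_cases h : ω ∉ ZZs n d K
    · rw [ind_true h, mul_one]
      have h1 : ¬ Good (st ω) := fun hg => h (mem_ZZs.2 ⟨hω, hg⟩)
      have h2 : ∃ i j, i ≠ j ∧ ∃ o o', B.pos (st ω i) o = B.pos (st ω j) o' := by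
        by_contra hcon
        push Not at hcon
        exact h1 (good_of_disjoint (mem_WW.1 hω).2 fun i j hij o o' => hcon i j hij o o')
      have h3 : ∃ i j, j ≠ i ∧ j ≠ a ∧ ∃ o o', B.pos (st ω i) o = B.pos (st ω j) o' := by
        obtain ⟨i, j, hij, o, o', hoo⟩ := h2
        by_cases hja : j = a
        · refine ⟨j, i, hij, ?_, o', o, hoo.symm⟩
          rw [← hja]; exact hij
        · exact ⟨i, j, hij.symm, hja, o, o', hoo⟩
      obtain ⟨i, j, hji, hja, o, o', hoo⟩ := h3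
      have h4 := Finset.single_le_sum (f := fun q => F q ω) (fun q _ => hF0 q ω hω)
        (Finset.mem_univ ((i, j), (o, o')))
      have e : F ((i, j), (o, o')) ω = f ω := by
        simp only [F]
        rw [if_pos ⟨hji, hja⟩, ind_true hoo, mul_one]
      rw [e] at h4
      exact h4
    · rw [ind_false h, mul_zero]
      exact hs
  refine (avg_mono hpt).trans ?_
  rw [avg_sum]
  refine (Finset.sum_le_sum fun q _ => hFb q).trans (le_of_eq ?_)
  rw [Finset.sum_const, Finset.card_univ]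
  simp only [Fintype.card_prod, Fintype.card_fin, Fintype.card_option, nsmul_eq_mul]
  push_cast
  field_simp

/-- The pair of stars `i, j`. -/
def sub2 (ω : Om n d K) (κ : Fin 2 → Fin K) : Om n d 2 := mk ω.1 (st ω ∘ κ)

lemma starMat_sub2 (ω : Om n d K) (κ : Fin 2 → Fin K) (z : ℂ) (a b : Fin 2)
    (x y : Option (Fin d)) :
    starMat (sub2 ω κ) z (a, x) (b, y) = starMat ω z (κ a, x) (κ b, y) := by
  have h : ∀ (a : Fin 2) (x : Option (Fin d)), P156.pos (sub2 ω κ) (a, x) =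
      P156.pos ω (κ a, x) := by
    intro a x
    rcases x with _ | x <;> rfl
  simp only [starMat, Matrix.submatrix_apply]
  rw [h, h]
  rfl

lemma sub2_mem_WW {ω : Om n d K} (hω : ω ∈ WW n d K) (κ : Fin 2 → Fin K) :
    sub2 ω κ ∈ WW n d 2 := by
  rw [mem_WW] at hω ⊢
  refine ⟨hω.1, mem_mstars.2 fun a => ?_⟩
  exact mem_mstars.1 hω.2 (κ a)

lemma sub2_mem {ω : Om n d K} (hω : ω ∈ ZZs n d K) {κ : Fin 2 → Fin K}
    (hκ : Function.Injective κ) : sub2 ω κ ∈ ZZs n d 2 := by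
  rw [mem_ZZs] at hω ⊢
  refine ⟨sub2_mem_WW hω.1 κ, ?_⟩
  have h := hω.2
  have e : Sum.elim (cen (st (sub2 ω κ))) (B.lead (st (sub2 ω κ))) =
      Sum.elim (cen (st ω)) (B.lead (st ω)) ∘
        Sum.map κ (fun p : Fin 2 × Fin d => (κ p.1, p.2)) := by
    funext q
    rcases q with q | q <;> rfl
  rw [Good, e]
  refine Function.Injective.comp h ?_
  refine Function.Injective.sumMap hκ ?_
  rintro ⟨a, x⟩ ⟨b, y⟩ hab
  simp only [Prod.mk.injEq] at hab
  rw [hκ hab.1, hab.2]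

lemma dev_nonneg (ω : Om n d K) (z : ℂ) : 0 ≤ dev ω z :=
  le_min zero_le_one (Finset.sum_nonneg fun _ _ => Finset.sum_nonneg fun _ _ => sq_nonneg _)

lemma rho_nonneg (ω : Om n d K) (z : ℂ) : 0 ≤ FE.rho ω z :=
  le_min zero_le_one (Finset.sum_nonneg fun _ _ => Finset.sum_nonneg fun _ _ => sq_nonneg _)

lemma dev_le_one (ω : Om n d K) (z : ℂ) : dev ω z ≤ 1 := min_le_left _ _

lemma rho_le_one (ω : Om n d K) (z : ℂ) : FE.rho ω z ≤ 1 := min_le_left _ _

lemma min_one_sum_le {ι : Type*} (s : Finset ι) (f : ι → ℝ) (hf : ∀ i ∈ s, 0 ≤ f i) :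
    min 1 (∑ i ∈ s, f i) ≤ ∑ i ∈ s, min 1 (f i) := by
  classical
  induction s using Finset.induction_on with
  | empty => simp
  | insert a s ha ih =>
    rw [Finset.sum_insert ha, Finset.sum_insert ha]
    have h1 := ih fun i hi => hf i (Finset.mem_insert_of_mem hi)
    have h2 := hf a (Finset.mem_insert_self a s)
    have h3 : 0 ≤ ∑ i ∈ s, f i := Finset.sum_nonneg fun i hi => hf i (Finset.mem_insert_of_mem hi)
    refine le_trans ?_ (add_le_add_right h1 _)
    rcases le_total 1 (f a) with h | h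
    · rw [min_eq_left h]
      exact (min_le_left _ _).trans (by have := le_min zero_le_one h3; linarith)
    · rw [min_eq_right h]
      rcases le_total 1 (∑ i ∈ s, f i) with h' | h'
      · rw [min_eq_left h']
        exact (min_le_left _ _).trans (by linarith)
      · rw [min_eq_right h']
        exact min_le_right _ _

/-- another index -/
lemma exists_pair (hK : 2 ≤ K) (i j : Fin K) : ∃ κ : Fin 2 → Fin K, Function.Injective κ ∧
    (∃ a, κ a = i) ∧ ∃ b, κ b = j := by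
  have h : ∀ i j : Fin K, i ≠ j → ∃ κ : Fin 2 → Fin K, Function.Injective κ ∧
      (∃ a, κ a = i) ∧ ∃ b, κ b = j := by
    intro i j hij
    refine ⟨![i, j], ?_, ⟨0, rfl⟩, ⟨1, rfl⟩⟩
    intro a b hab
    fin_cases a <;> fin_cases b
    · rfl
    · exact absurd hab hij
    · exact absurd hab.symm hij
    · rfl
  by_cases hij : i = j
  · subst hij
    obtain ⟨j, hj⟩ : ∃ j : Fin K, j ≠ i := by
      by_contra hcon
      push Not at hcon
      have h1 := hcon ⟨0, by omega⟩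
      have h2 := hcon ⟨1, by omega⟩
      rw [← h2] at h1
      have := congrArg Fin.val h1
      simp at this
    obtain ⟨κ, h1, h2, _⟩ := h i j hj.symm
    exact ⟨κ, h1, h2, h2⟩
  · exact h i j hij

/-- the deviation of `K` stars is controlled by the deviations of the pairs -/
theorem dev_le_pairs (hK : 2 ≤ K) : ∃ κ : Fin K × Fin K → Fin 2 → Fin K,
    (∀ q, Function.Injective (κ q)) ∧
    ∀ (ω : Om n d K) (z : ℂ), dev ω z ≤ ∑ q, dev (sub2 ω (κ q)) z := by
  choose κ h1 h2 h3 using fun q : Fin K × Fin K => exists_pair hK q.1 q.2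
  refine ⟨κ, h1, fun ω z => ?_⟩
  have hg : ∀ q : Fin K × Fin K, ∑ x : Option (Fin d), ∑ y : Option (Fin d),
      ‖starMat ω z (q.1, x) (q.2, y) - H520.Kz d z (mm d z) K (q.1, x) (q.2, y)‖ ^ 2 ≤
      ∑ x, ∑ y, ‖starMat (sub2 ω (κ q)) z x y - H520.Kz d z (mm d z) 2 x y‖ ^ 2 := by
    intro q
    obtain ⟨a, ha⟩ := h2 q
    obtain ⟨b, hb⟩ := h3 q
    rw [Fintype.sum_prod_type]
    have hnn : ∀ a : Fin 2, 0 ≤ ∑ x : Option (Fin d), ∑ y : Fin 2 × Option (Fin d),
        ‖starMat (sub2 ω (κ q)) z (a, x) y - H520.Kz d z (mm d z) 2 (a, x) y‖ ^ 2 :=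
      fun a => Finset.sum_nonneg fun _ _ => Finset.sum_nonneg fun _ _ => sq_nonneg _
    refine le_trans ?_ (Finset.single_le_sum (f := fun a => ∑ x : Option (Fin d),
      ∑ y : Fin 2 × Option (Fin d), ‖starMat (sub2 ω (κ q)) z (a, x) y -
        H520.Kz d z (mm d z) 2 (a, x) y‖ ^ 2) (fun a _ => hnn a) (Finset.mem_univ a))
    refine Finset.sum_le_sum fun x _ => ?_
    rw [Fintype.sum_prod_type]
    refine le_trans (le_of_eq ?_) (Finset.single_le_sum (f := fun b : Fin 2 =>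
      ∑ y : Option (Fin d), ‖starMat (sub2 ω (κ q)) z (a, x) (b, y) -
        H520.Kz d z (mm d z) 2 (a, x) (b, y)‖ ^ 2)
      (fun b _ => Finset.sum_nonneg fun _ _ => sq_nonneg _) (Finset.mem_univ b))
    refine Finset.sum_congr rfl fun y _ => ?_
    rw [starMat_sub2, ha, hb]
    congr 3
    simp only [H520.Kz]
    have : (a = b) ↔ (q.1 = q.2) := by
      rw [← ha, ← hb]
      exact ((h1 q).eq_iff).symm
    by_cases hab : a = b
    · rw [if_pos hab, if_pos (this.1 hab)]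
    · rw [if_neg hab, if_neg fun h => hab (this.2 h)]
  have hsum : ∑ x : Fin K × Option (Fin d), ∑ y : Fin K × Option (Fin d),
      ‖starMat ω z x y - H520.Kz d z (mm d z) K x y‖ ^ 2 =
      ∑ q : Fin K × Fin K, ∑ x : Option (Fin d), ∑ y : Option (Fin d),
        ‖starMat ω z (q.1, x) (q.2, y) - H520.Kz d z (mm d z) K (q.1, x) (q.2, y)‖ ^ 2 := by
    simp only [Fintype.sum_prod_type]
    refine Finset.sum_congr rfl fun i _ => ?_
    rw [Finset.sum_comm]
  unfold dev
  rw [hsum]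
  refine le_trans (min_le_min le_rfl (Finset.sum_le_sum fun q _ => hg q)) ?_
  exact min_one_sum_le _ _ fun q _ =>
    Finset.sum_nonneg fun _ _ => Finset.sum_nonneg fun _ _ => sq_nonneg _

/-- Probability that `K` stars in general position are not typical, from the first moment of two
stars. -/
theorem prob_notTyp_le (hK : 2 ≤ K) {a b : ℝ} (hC : SpecComp d a b) (hFM : SpecFM d a b)
    {c₁ : ℝ} (hc : 0 < c₁) :
    ∃ C : ℝ, 0 ≤ C ∧ ∀ n : ℕ, Adm n d → ∀ E ∈ Set.Icc a b, ∀ η : ℝ, 0 < η → η ≤ 1 →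
      1 ≤ n * η →
      avg (WW n d K) (fun ω => ind (ω ∈ ZZs n d K ∧ ¬ FE.rho ω (zz E η) ≤ c₁)) ≤ C / (n * η) := by
  obtain ⟨CK, hCK1, hCK⟩ := hC K
  obtain ⟨C2, hC21, hC2⟩ := hC 2
  obtain ⟨A, hA1, hA⟩ := hFM
  refine ⟨(K : ℝ) ^ 2 * (CK * C2 / c₁) * A, by positivity, fun n hn E hE η hη hη1 hnη => ?_⟩
  have hn0 : 0 < n := by have := hn.1; omega
  obtain ⟨κ, hκ, hdev⟩ := dev_le_pairs (n := n) (d := d) (K := K) hK
  have hpt : ∀ ω ∈ WW n d K, ind (ω ∈ ZZs n d K ∧ ¬ FE.rho ω (zz E η) ≤ c₁) ≤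
      (CK * C2 / c₁) * ∑ q, FE.rho (sub2 ω (κ q)) (zz E η) := by
    intro ω _
    by_cases h : ω ∈ ZZs n d K ∧ ¬ FE.rho ω (zz E η) ≤ c₁
    · rw [ind_true h]
      obtain ⟨h1, h2⟩ := h
      rw [not_le] at h2
      have h3 := (hCK n ω h1 E hE η hη hη1).1
      have h4 := hdev ω (zz E η)
      have h5 : ∑ q, dev (sub2 ω (κ q)) (zz E η) ≤ ∑ q, C2 * FE.rho (sub2 ω (κ q)) (zz E η) :=
        Finset.sum_le_sum fun q _ => (hC2 n _ (sub2_mem h1 (hκ q)) E hE η hη hη1).2
      rw [← Finset.mul_sum] at h5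
      have h6 : c₁ ≤ CK * (C2 * ∑ q, FE.rho (sub2 ω (κ q)) (zz E η)) :=
        h2.le.trans (h3.trans (mul_le_mul_of_nonneg_left (h4.trans h5) (by linarith)))
      rw [div_mul_eq_mul_div, le_div_iff₀ hc, one_mul]
      linarith
    · rw [ind_false h]
      have : 0 ≤ ∑ q, FE.rho (sub2 ω (κ q)) (zz E η) := Finset.sum_nonneg fun _ _ => rho_nonneg _ _
      positivity
  refine (avg_mono hpt).trans ?_
  rw [avg_mul_left, avg_sum]
  have h7 : ∀ q : Fin K × Fin K, avg (WW n d K) (fun ω => FE.rho (sub2 ω (κ q)) (zz E η)) ≤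
      A / (n * η) := by
    intro q
    have := avg_WW_marg (n := n) (d := d) hn0 (hκ q) (fun ω => FE.rho ω (zz E η))
    change avg (WW n d K) (fun ω => FE.rho (mk ω.1 (st ω ∘ κ q)) (zz E η)) ≤ _
    rw [this]
    exact hA n hn E hE η hη hη1 hnη
  have h8 : ∑ q : Fin K × Fin K, avg (WW n d K) (fun ω => FE.rho (sub2 ω (κ q)) (zz E η)) ≤
      (K : ℝ) ^ 2 * (A / (n * η)) := by
    refine (Finset.sum_le_sum fun q _ => h7 q).trans (le_of_eq ?_)
    rw [Finset.sum_const, Finset.card_univ, Fintype.card_prod, Fintype.card_fin, nsmul_eq_mul]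
    push_cast
    ring
  refine (mul_le_mul_of_nonneg_left h8 (by positivity)).trans (le_of_eq ?_)
  ring

end

end Vale.Agent.P156.H490.TD
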