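import Vale.Agent.P156.H490.TDb
import Vale.Agent.P156.H490.Schur
import Vale.Agent.P156.H520.Final

/-! FE11 (two defects), deterministic part. -/

open Matrix Finset

namespace Vale.Agent.P156.H490.TD

open Vale.Agent.P156.B Vale.Agent.P156.FE

noncomputable section

variable {n d K : ℕ}

lemma zz_im (E η : ℝ) : (zz E η).im = η := by simp [zz]

/-- The imaginary part of the lead matrix is positive semidefinite. -/
theorem im_psd {ω : Om n d K} (hω : ω ∈ ZZs n d K) (E : ℝ) {η : ℝ} (hη : 0 < η)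
    (u : Fin K × Fin d → ℝ) :
    0 ≤ ∑ p, ∑ r, u p * u r * (leadMat ω (zz E η) p r).im := by
  have hz : (zz E η).im ≠ 0 := by rw [zz_im]; exact hη.ne'
  set hA := adj_isHermitian ω.1
  have h1 : ∀ p r, (leadMat ω (zz E η) p r).im =
      ∑ i, (H801.ev (H801.zo_herm hA (centres ω)) i (P156.lead ω p) *
        H801.ev (H801.zo_herm hA (centres ω)) i (P156.lead ω r)) *
        H801.pk η ((H801.zo_herm hA (centres ω)).eigenvalues i - E) := by
    intro p r
    change (resD (adj ω.1) (centres ω) (zz E η) (P156.lead ω p) (P156.lead ω r)).im = _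
    rw [H801.resD_apply hA (fun i => H801.eig_sub_ne hA _ hz i) (lead_notMem hω p)
      (lead_notMem hω r)]
    exact H801.hh_im _ _ E η
  have h2 : ∑ p, ∑ r, u p * u r * (leadMat ω (zz E η) p r).im =
      ∑ i, (∑ p, u p * H801.ev (H801.zo_herm hA (centres ω)) i (P156.lead ω p)) ^ 2 *
        H801.pk η ((H801.zo_herm hA (centres ω)).eigenvalues i - E) := by
    simp only [h1, pow_two, Finset.sum_mul, Finset.mul_sum]
    rw [Finset.sum_comm' (s := univ) (t := fun _ => univ) (s' := fun _ => univ) (t' := univ)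
      (by simp)]
    rw [Finset.sum_comm]
    rw [Finset.sum_congr rfl fun r _ => Finset.sum_comm]
    rw [Finset.sum_comm]
    refine Finset.sum_congr rfl fun i _ => ?_
    rw [Finset.sum_comm]
    refine Finset.sum_congr rfl fun p _ => Finset.sum_congr rfl fun r _ => ?_
    ring
  rw [h2]
  exact Finset.sum_nonneg fun i _ => mul_nonneg (sq_nonneg _) (H801.pk_nonneg hη.le _)

/-- The resolvent entry at the centre of a single star. -/
theorem centre_mul {ω : Om n d 1} (hω : ω ∈ ZZs n d 1) {z : ℂ} (hz : z.im ≠ 0) :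
    resD (adj ω.1) ∅ z (ω.2.1 0) (ω.2.1 0) *
      (-(z + ∑ k : Fin d, ∑ l : Fin d, leadMat ω z (0, k) (0, l))) = 1 := by
  have h0 : IsUnit (cutMat (adj ω.1) ∅ z).det := H520.isUnit_cut _ _ hz
  have hD : IsUnit (cutMat (adj ω.1) (centres ω) z).det := H520.isUnit_cut _ _ hz
  have h1 := centreMat_inv hω h0 hD 0 0
  have h2 := Matrix.mul_nonsing_inv _ (isUnit_centreMat hω h0 hD)
  have h3 := congrFun (congrFun h2 0) 0
  rw [Matrix.mul_apply, Fin.sum_univ_one, h1, if_pos rfl] at h3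
  simpa [centreMat] using h3

/-- one star: `WW = ZZs` -/
lemma ZZs_one {ω : Om n d 1} (hω : ω ∈ WW n d 1) : ω ∈ ZZs n d 1 := by
  rw [B.mem_ZZs]
  refine ⟨hω, good_of_disjoint (B.mem_WW.1 hω).2 fun i j hij => ?_⟩
  exact absurd (Subsingleton.elim i j) hij

lemma lead_symm (ω : Om n d K) (z : ℂ) (p r : Fin K × Fin d) :
    leadMat ω z p r = leadMat ω z r p := by
  have := congrFun (congrFun (H520.res_symm ω.1 (centres ω) z) (P156.lead ω r)) (P156.lead ω p)
  rw [Matrix.transpose_apply] at this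
  exact this

/-- A good lead bounds the resolvent entry at the centre. -/
theorem norm_le_of_good {ω : Om n d 1} (hω : ω ∈ ZZs n d 1) (E : ℝ) {η : ℝ} (hη : 0 < η)
    {c e : ℝ} (hc : 0 < c) (he : 0 ≤ e) (hce : 2 * d * e ≤ c / 4) {k : Fin d}
    (h1 : c / 2 ≤ (leadMat ω (zz E η) (0, k) (0, k)).im)
    (h2 : ∀ l, l ≠ k → ‖leadMat ω (zz E η) (0, k) (0, l)‖ ≤ e) :
    ‖resD (adj ω.1) ∅ (zz E η) (ω.2.1 0) (ω.2.1 0)‖ ≤ 4 / c := by
  have hz : (zz E η).im ≠ 0 := by rw [zz_im]; exact hη.ne'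
  set M := leadMat ω (zz E η) with hM
  have hprod := centre_mul hω hz
  rw [← hM] at hprod
  set S := ∑ k : Fin d, ∑ l : Fin d, M (0, k) (0, l) with hS
  have hsym : ∀ k l, M (0, k) (0, l) = M (0, l) (0, k) := fun k l => lead_symm ω _ _ _
  -- imaginary part of S
  have hpsd := im_psd hω E hη (fun p => if p.2 = k then 0 else 1)
  rw [← hM] at hpsd
  simp only [Fintype.sum_prod_type, Finset.univ_unique, Fin.default_eq_zero,
    Finset.sum_singleton] at hpsd
  have hSim : S.im = (∑ p : Fin d, ∑ r : Fin d, (if p = k then (0 : ℝ) else 1) *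
      (if r = k then (0 : ℝ) else 1) * (M (0, p) (0, r)).im) +
      (M (0, k) (0, k)).im + 2 * ∑ l ∈ univ.erase k, (M (0, k) (0, l)).im := by
    have e1 : S.im = ∑ p : Fin d, ∑ r : Fin d, (M (0, p) (0, r)).im := by
      rw [hS, Complex.im_sum]
      exact Finset.sum_congr rfl fun p _ => Complex.im_sum _ _
    have e2 : ∑ p : Fin d, ∑ r : Fin d, (M (0, p) (0, r)).im =
        (∑ p ∈ univ.erase k, ∑ r ∈ univ.erase k, (M (0, p) (0, r)).im) +
        (M (0, k) (0, k)).im + 2 * ∑ l ∈ univ.erase k, (M (0, k) (0, l)).im := by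
      have hk := Finset.mem_univ k
      rw [← Finset.add_sum_erase _ _ hk, ← Finset.add_sum_erase _ (fun r => (M (0, k) (0, r)).im) hk]
      have e3 : ∀ p ∈ univ.erase k, ∑ r : Fin d, (M (0, p) (0, r)).im =
          (M (0, k) (0, p)).im + ∑ r ∈ univ.erase k, (M (0, p) (0, r)).im := by
        intro p _
        rw [← Finset.add_sum_erase _ (fun r => (M (0, p) (0, r)).im) hk, hsym p k]
      rw [Finset.sum_congr rfl e3, Finset.sum_add_distrib]
      ring
    have e4 : ∑ p : Fin d, ∑ r : Fin d, (if p = k then (0 : ℝ) else 1) *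
      (if r = k then (0 : ℝ) else 1) * (M (0, p) (0, r)).im =
        ∑ p ∈ univ.erase k, ∑ r ∈ univ.erase k, (M (0, p) (0, r)).im := by
      have hk := Finset.mem_univ k
      rw [← Finset.add_sum_erase _ _ hk]
      simp only [if_true, zero_mul, Finset.sum_const_zero, zero_add]
      refine Finset.sum_congr rfl fun p hp => ?_
      rw [if_neg (Finset.ne_of_mem_erase hp), ← Finset.add_sum_erase _ _ hk]
      simp only [if_true, mul_zero, zero_mul, zero_add, one_mul]
      refine Finset.sum_congr rfl fun r hr => ?_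
      rw [if_neg (Finset.ne_of_mem_erase hr), one_mul]
    rw [e1, e2, e4]
  have hoff : -(d * e) ≤ ∑ l ∈ univ.erase k, (M (0, k) (0, l)).im := by
    have h3 : |∑ l ∈ univ.erase k, (M (0, k) (0, l)).im| ≤ d * e := by
      refine (Finset.abs_sum_le_sum_abs _ _).trans ?_
      refine (Finset.sum_le_card_nsmul _ _ e fun l hl => ?_).trans ?_
      · exact (Complex.abs_im_le_norm _).trans (h2 l (Finset.ne_of_mem_erase hl))
      · rw [nsmul_eq_mul]
        refine mul_le_mul_of_nonneg_right ?_ he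
        have := Finset.card_erase_le (s := (univ : Finset (Fin d))) (a := k)
        rw [Finset.card_univ, Fintype.card_fin] at this
        exact_mod_cast this
    exact (abs_le.1 h3).1
  have hSlow : c / 4 ≤ S.im := by
    rw [hSim]
    have h5 : c / 2 ≤ (M (0, k) (0, k)).im := h1
    nlinarith
  have hnorm : c / 4 ≤ ‖-(zz E η + S)‖ := by
    rw [norm_neg]
    calc c / 4 ≤ (zz E η + S).im := by rw [Complex.add_im, zz_im]; linarith
      _ ≤ |(zz E η + S).im| := le_abs_self _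
      _ ≤ _ := Complex.abs_im_le_norm _
  have hn := congrArg norm hprod
  rw [norm_mul, norm_one] at hn
  rw [le_div_iff₀ hc]
  nlinarith [norm_nonneg (resD (adj ω.1) ∅ (zz E η) (ω.2.1 0) (ω.2.1 0))]

/-! ### single stars of a pattern -/

lemma sub1_mem {ω : Om n d K} (hω : ω ∈ WW n d K) (j : Fin K) : sub1 ω j ∈ ZZs n d 1 := by
  apply ZZs_one
  rw [B.mem_WW] at hω ⊢
  refine ⟨hω.1, mem_mstars.2 fun a => ?_⟩
  exact mem_mstars.1 hω.2 j

lemma pos_eq (ω : Om n d K) (i : Fin K) (x : Option (Fin d)) :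
    P156.pos ω (i, x) = B.pos (st ω i) x := by
  rcases x with _ | x <;> rfl

lemma starMat_eq' (ω : Om n d K) (z : ℂ) (i j : Fin K) (x y : Option (Fin d)) :
    starMat ω z (i, x) (j, y) =
      resD (adj ω.1) ∅ z (B.pos (st ω i) x) (B.pos (st ω j) y) := by
  simp only [starMat, Matrix.submatrix_apply, pos_eq]

lemma starMat_sub1 (ω : Om n d K) (z : ℂ) (j : Fin K) (a b : Fin 1) (x y : Option (Fin d)) :
    starMat (sub1 ω j) z (a, x) (b, y) = starMat ω z (j, x) (j, y) := by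
  rw [starMat_eq', starMat_eq']
  rfl

/-- small coupling means small entries -/
lemma entry_le_of_Gam {ω : Om n d K} {z : ℂ} {i j : Fin K} {τ : ℝ} (hτ : 0 ≤ τ)
    (h : Gam ω.1 z (st ω i) (st ω j) ≤ τ ^ 2) (x y : Option (Fin d)) :
    ‖starMat ω z (i, x) (j, y)‖ ≤ τ := by
  rw [starMat_eq']
  have h1 : ‖resD (adj ω.1) ∅ z (B.pos (st ω i) x) (B.pos (st ω j) y)‖ ^ 2 ≤ τ ^ 2 := by
    refine le_trans ?_ h
    refine le_trans ?_ (Finset.single_le_sum (f := fun x => ∑ y : Option (Fin d),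
      ‖resD (adj ω.1) ∅ z (B.pos (st ω i) x) (B.pos (st ω j) y)‖ ^ 2)
      (fun _ _ => Finset.sum_nonneg fun _ _ => sq_nonneg _) (Finset.mem_univ x))
    exact Finset.single_le_sum (f := fun y =>
      ‖resD (adj ω.1) ∅ z (B.pos (st ω i) x) (B.pos (st ω j) y)‖ ^ 2)
      (fun _ _ => sq_nonneg _) (Finset.mem_univ y)
  exact (sq_le_sq₀ (norm_nonneg _) hτ).1 h1

lemma Gam_symm (G : SimpleGraph (Fin n)) (z : ℂ) (s t : St n d) : Gam G z s t = Gam G z t s := by
  unfold Gam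
  rw [Finset.sum_comm]
  refine Finset.sum_congr rfl fun x _ => Finset.sum_congr rfl fun y _ => ?_
  have := congrFun (congrFun (H520.res_symm G ∅ z) (B.pos t x)) (B.pos s y)
  rw [Matrix.transpose_apply] at this
  rw [this]

/-- Growth bounds. -/
def GB (ω : Om n d K) (z : ℂ) (B : ℝ) : Prop :=
  (∀ x y, ‖starMat ω z x y‖ ≤ B) ∧ (∀ i j, ‖(centreMat ω z)⁻¹ i j‖ ≤ B) ∧
    ∀ j, ‖(starMat ω z (j, none) (j, none))⁻¹‖ ≤ B

/-- No good lead among the leads `f k`. -/
def NG (c e : ℝ) (f : Fin d → Fin K × Fin d) (R : Matrix (Fin K × Fin d) (Fin K × Fin d) ℂ) :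
    Prop :=
  ∀ k, ¬ (5 / 8 * c ≤ (R (f k) (f k)).im ∧ ∀ l, l ≠ k → ‖R (f k) (f l)‖ ≤ e / 2)

/-- If the centre entry of star `0` is large and star `0` is decoupled, then star `0` has no good
lead. -/
theorem ng_of_large {ω : Om n d (d + 1)} (hω : ω ∈ ZZs n d (d + 1)) (E : ℝ) {η : ℝ} (hη : 0 < η)
    {c e err : ℝ} (hc : 0 < c) (he : 0 ≤ e) (hce : 2 * d * e ≤ c / 4) (hr1 : err ≤ c / 8)
    (hr2 : err ≤ e / 2)
    (h1 : ∀ p r : Fin d, ‖leadMat ω (zz E η) (0, p) (0, r) -
      leadMat (sub1 ω 0) (zz E η) (0, p) (0, r)‖ ≤ err)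
    (h2 : 4 / c < ‖resD (adj ω.1) ∅ (zz E η) (ω.2.1 0) (ω.2.1 0)‖) :
    NG c e (fun k => (0, k)) (leadMat ω (zz E η)) := by
  rintro k ⟨h3, h4⟩
  have hs := sub1_mem (B.mem_ZZs.1 hω).1 (0 : Fin (d + 1))
  have h5 := norm_le_of_good (k := k) hs E hη hc he hce ?_ ?_
  · exact absurd h5 (not_le.2 h2)
  · have := (Complex.abs_im_le_norm _).trans (h1 k k)
    rw [Complex.sub_im] at this
    have := (abs_le.1 this).2
    linarith
  · intro l hl
    have h6 := h1 k l
    have h7 := h4 l hl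
    calc ‖leadMat (sub1 ω 0) (zz E η) (0, k) (0, l)‖ =
        ‖leadMat ω (zz E η) (0, k) (0, l) - (leadMat ω (zz E η) (0, k) (0, l) -
          leadMat (sub1 ω 0) (zz E η) (0, k) (0, l))‖ := by ring_nf
      _ ≤ ‖leadMat ω (zz E η) (0, k) (0, l)‖ + ‖leadMat ω (zz E η) (0, k) (0, l) -
          leadMat (sub1 ω 0) (zz E η) (0, k) (0, l)‖ := norm_sub_le _ _
      _ ≤ e := by linarith

/-- A typical decoupled star gives a good lead. -/
theorem good_of_typical {ω : Om n d K} {z : ℂ} {c e err e₃ : ℝ} (hm : c ≤ (mm d z).im)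
    (hr1 : err ≤ c / 8) (hr2 : err ≤ e / 2) (he3 : 0 ≤ e₃) (he3' : e₃ < 1) (he3c : e₃ ≤ c / 8)
    {k : Fin K} {p : Fin d}
    (h1 : ‖leadMat ω z (k, p) (k, p) - leadMat (sub1 ω k) z (0, p) (0, p)‖ ≤ err)
    (h2 : ∀ j, j ≠ k → ‖leadMat ω z (k, p) (j, p)‖ ≤ err)
    (h3 : FE.rho (sub1 ω k) z ≤ e₃ ^ 2) (hc : 0 < c) :
    5 / 8 * c ≤ (leadMat ω z (k, p) (k, p)).im ∧ ∀ j, j ≠ k → ‖leadMat ω z (k, p) (j, p)‖ ≤ e / 2 := by
  refine ⟨?_, fun j hj => (h2 j hj).trans hr2⟩
  have h4 : ‖leadMat (sub1 ω k) z (0, p) (0, p) - mm d z‖ ≤ e₃ := by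
    have h5 : ‖leadMat (sub1 ω k) z (0, p) (0, p) - mm d z‖ ^ 2 ≤
        ∑ a, ∑ b, ‖leadMat (sub1 ω k) z a b - (if a = b then mm d z else 0)‖ ^ 2 := by
      refine le_trans (le_of_eq ?_) ((Finset.single_le_sum (f := fun b =>
        ‖leadMat (sub1 ω k) z (0, p) b - (if (0, p) = b then mm d z else 0)‖ ^ 2)
        (fun _ _ => sq_nonneg _) (Finset.mem_univ (0, p))).trans
        (Finset.single_le_sum (f := fun a => ∑ b, ‖leadMat (sub1 ω k) z a b -
          (if a = b then mm d z else 0)‖ ^ 2)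
          (fun _ _ => Finset.sum_nonneg fun _ _ => sq_nonneg _) (Finset.mem_univ (0, p))))
      rw [if_pos rfl]
    have h6 : e₃ ^ 2 < 1 := by nlinarith
    unfold FE.rho at h3
    have h7 : ∑ a, ∑ b, ‖leadMat (sub1 ω k) z a b - (if a = b then mm d z else 0)‖ ^ 2 ≤
        e₃ ^ 2 := by
      rcases min_le_iff.1 h3 with h | h
      · linarith
      · exact h
    exact (sq_le_sq₀ (norm_nonneg _) he3).1 (h5.trans h7)
  have h8 := (Complex.abs_im_le_norm _).trans h4
  have h9 := (Complex.abs_im_le_norm _).trans h1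
  rw [Complex.sub_im] at h8 h9
  have h10 := (abs_le.1 h8).1
  have h11 := (abs_le.1 h9).1
  linarith

/-- Growth bounds at large `η`. -/
theorem gb_of_large {ω : Om n d K} (hω : ω ∈ ZZs n d K) {E η R : ℝ} (hη : 0 < η)
    (hR : 1 / η ≤ R) (hR1 : 1 ≤ R) (hη1 : η ≤ 1) :
    GB ω (zz E η) ((|E| + 1 + d ^ 2) * R) := by
  have hz : (zz E η).im ≠ 0 := by rw [zz_im]; exact hη.ne'
  have hmax : max 1 (1 / η) ≤ R := max_le hR1 hR
  have hres : ∀ D : Finset (Fin n), ∀ x y, ‖resD (adj ω.1) D (zz E η) x y‖ ≤ R := fun D x y =>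
    (H801.norm_resD_le (adj_isHermitian ω.1) D E hη x y).trans hmax
  have hCR : R ≤ (|E| + 1 + d ^ 2) * R := by
    have : 1 ≤ |E| + 1 + (d : ℝ) ^ 2 := by
      have := abs_nonneg E
      have : (0 : ℝ) ≤ (d : ℝ) ^ 2 := by positivity
      linarith
    nlinarith
  have hzn : ‖zz E η‖ ≤ |E| + 1 := by
    unfold zz
    refine (norm_add_le _ _).trans ?_
    rw [norm_mul, Complex.norm_real, Complex.norm_real, Complex.norm_I, mul_one, Real.norm_eq_abs,
      Real.norm_of_nonneg hη.le]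
    linarith
  have hsum : ∀ {K' : ℕ} (ω' : Om n d K') (hω' : ω' ∈ ZZs n d K') (hG : ω'.1 = ω.1) (i j : Fin K'),
      ‖(centreMat ω' (zz E η))⁻¹ i j‖ ≤ (|E| + 1 + d ^ 2) * R := by
    intro K' ω' hω' hG i j
    rw [centreMat_inv hω' (H520.isUnit_cut _ _ hz) (H520.isUnit_cut _ _ hz), norm_neg]
    refine (norm_add_le _ _).trans ?_
    have h1 : ‖(if i = j then zz E η else 0 : ℂ)‖ ≤ |E| + 1 := by
      split_ifs
      · exact hzn
      · rw [norm_zero]; positivity
    have h2 : ‖∑ k : Fin d, ∑ k' : Fin d, leadMat ω' (zz E η) (i, k) (j, k')‖ ≤ d ^ 2 * R := by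
      refine (norm_sum_le _ _).trans ?_
      refine (Finset.sum_le_sum fun k _ => (norm_sum_le _ _).trans
        (Finset.sum_le_sum (g := fun _ => R) fun k' _ => ?_)).trans (le_of_eq ?_)
      · have := hres (centres ω') (P156.lead ω' (i, k)) (P156.lead ω' (j, k'))
        rw [← hG] at this
        exact this
      · simp only [Finset.sum_const, Finset.card_univ, Fintype.card_fin, nsmul_eq_mul]
        ring
    have h3 : |E| + 1 ≤ (|E| + 1) * R := by
      have := abs_nonneg E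
      nlinarith
    calc _ ≤ (|E| + 1) + d ^ 2 * R := add_le_add h1 h2
      _ ≤ (|E| + 1) * R + d ^ 2 * R := by linarith
      _ = _ := by ring
  refine ⟨fun x y => (hres ∅ _ _).trans hCR, hsum ω hω rfl, fun j => ?_⟩
  have hs := sub1_mem (B.mem_ZZs.1 hω).1 j
  have h4 := hsum (sub1 ω j) hs rfl 0 0
  have h5 := Matrix.mul_nonsing_inv _ (isUnit_centreMat hs (H520.isUnit_cut (adj ω.1 |> fun _ =>
    (sub1 ω j).1) ∅ hz) (H520.isUnit_cut _ _ hz))
  have h6 := congrFun (congrFun h5 0) 0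
  rw [Matrix.mul_apply, Fin.sum_univ_one, Matrix.one_apply_eq] at h6
  have h7 : starMat ω (zz E η) (j, none) (j, none) = centreMat (sub1 ω j) (zz E η) 0 0 := rfl
  rw [h7, inv_eq_of_mul_eq_one_right h6]
  exact h4

end

end Vale.Agent.P156.H490.TD
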