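import Vale.Agent.P156.H490.TDc

/-! FE11 (two defects), exchange of the leads and assembly. -/

open Matrix Finset

namespace Vale.Agent.P156.H490.TD

open Vale.Agent.P156.B Vale.Agent.P156.FE

noncomputable section

variable {n d K : ℕ}

/-- the exchange `(0, k) ↔ (k + 1, z0)` -/
def exch (z0 : Fin d) (p : Fin (d + 1) × Fin d) : Fin (d + 1) × Fin d :=
  Fin.cases (p.2.succ, z0) (fun k => if p.2 = z0 then (0, k) else (k.succ, p.2)) p.1

lemma exch_zero (z0 k : Fin d) : exch z0 (0, k) = (k.succ, z0) := rfl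

lemma exch_succ (z0 k : Fin d) : exch z0 (k.succ, z0) = (0, k) := by
  simp [exch]

lemma exch_succ_ne (z0 k l : Fin d) (h : l ≠ z0) : exch z0 (k.succ, l) = (k.succ, l) := by
  simp [exch, h]

lemma exch_inv (z0 : Fin d) : Function.Involutive (exch z0) := by
  rintro ⟨i, l⟩
  refine Fin.cases ?_ (fun k => ?_) i
  · rw [exch_zero, exch_succ]
  · by_cases h : l = z0
    · rw [h, exch_succ, exch_zero]
    · rw [exch_succ_ne _ _ _ h, exch_succ_ne _ _ _ h]

/-- the exchange as a permutation -/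
def sig (z0 : Fin d) : Equiv.Perm (Fin (d + 1) × Fin d) := (exch_inv z0).toPerm

lemma sig_zero (z0 k : Fin d) : sig z0 (0, k) = (k.succ, z0) := rfl

/-- truncated deviation of a matrix from `m I` -/
def rhoM (m : ℂ) (R : Matrix (Fin K × Fin d) (Fin K × Fin d) ℂ) : ℝ :=
  min 1 (∑ a, ∑ b, ‖R a b - (if a = b then m else 0)‖ ^ 2)

lemma rhoM_perm (m : ℂ) (R : Matrix (Fin K × Fin d) (Fin K × Fin d) ℂ)
    (σ : Equiv.Perm (Fin K × Fin d)) : rhoM m (R.submatrix σ σ) = rhoM m R := by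
  unfold rhoM
  congr 1
  rw [← Equiv.sum_comp σ (fun a => ∑ b, ‖R a b - (if a = b then m else 0)‖ ^ 2)]
  refine Finset.sum_congr rfl fun a _ => ?_
  rw [← Equiv.sum_comp σ (fun b => ‖R (σ a) b - (if σ a = b then m else 0)‖ ^ 2)]
  refine Finset.sum_congr rfl fun b _ => ?_
  simp only [Matrix.submatrix_apply, EmbeddingLike.apply_eq_iff_eq]

lemma sum_ZZs_ind (P : Om n d K → Prop) :
    avg (WW n d K) (fun ω => ind (ω ∈ ZZs n d K ∧ P ω)) =
      (∑ ω ∈ ZZs n d K, ind (P ω)) / (WW n d K).card := by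
  classical
  unfold avg
  congr 1
  have hsub : ZZs n d K ⊆ WW n d K := fun ω hω => (B.mem_ZZs.1 hω).1
  rw [← Finset.sum_subset hsub]
  · exact Finset.sum_congr rfl fun ω hω => ind_congr ⟨fun h => h.2, fun h => ⟨hω, h⟩⟩
  · intro ω _ h
    exact ind_false fun h' => h h'.1

/-- exact exchangeability, as an identity of probabilities over `WW` -/
theorem exchange (σ : Equiv.Perm (Fin K × Fin d)) (z z' : ℂ)
    (P P' : Matrix (Fin K × Fin d) (Fin K × Fin d) ℂ →
      Matrix (Fin K × Fin d) (Fin K × Fin d) ℂ → Prop)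
    (hP : ∀ R R', P (R.submatrix σ σ) (R'.submatrix σ σ) ↔ P' R R') :
    avg (WW n d K) (fun ω => ind (ω ∈ ZZs n d K ∧ P (leadMat ω z) (leadMat ω z'))) =
      avg (WW n d K) (fun ω => ind (ω ∈ ZZs n d K ∧ P' (leadMat ω z) (leadMat ω z'))) := by
  rw [sum_ZZs_ind, sum_ZZs_ind]
  congr 1
  have h := B.specPerm d n K σ (Fin 2) ![z, z'] (fun R => ind (P (R 0) (R 1)))
  unfold avg at h
  simp only [Matrix.cons_val_zero, Matrix.cons_val_one] at h
  have h2 : ∀ ω : Om n d K, ind (P ((leadMat ω z).submatrix σ σ) ((leadMat ω z').submatrix σ σ)) =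
      ind (P' (leadMat ω z) (leadMat ω z')) := fun ω => ind_congr (hP _ _)
  by_cases hc : ((ZZs n d K).card : ℝ) = 0
  · have : ZZs n d K = ∅ := Finset.card_eq_zero.1 (by exact_mod_cast hc)
    rw [this]
    simp
  · have h3 := (div_left_inj' hc).1 h
    rw [h3]
    exact Finset.sum_congr rfl fun ω _ => h2 ω

/-- the second moment of `V` without cut-off -/
theorem avg_VV_sq_le {a b : ℝ} (hSM : SpecSM d a b) : ∃ A L₀ : ℝ, 0 ≤ A ∧ 1 ≤ L₀ ∧ ∀ n : ℕ,
    Adm n d → ∀ E ∈ Set.Icc a b, ∀ η : ℝ, 0 < η → η ≤ 1 → L₀ ≤ n * η →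
    avg (regularGraphs n d) (fun G => VV d G (zz E η) ^ 2) ≤ A / (n * η) ^ 2 := by
  classical
  obtain ⟨ε₂, hε, h⟩ := hSM
  obtain ⟨A, L₀, hA, hL, h⟩ := h ε₂ hε le_rfl
  refine ⟨2 * A, L₀, by linarith, hL, fun n hn E hE η hη hη1 hnη => ?_⟩
  obtain ⟨w, w', hWt, hw1, hw1', hww, -, hP, hV⟩ := h n hn E hE η hη hη1 hnη
  have hVle : ∀ G : SimpleGraph (Fin n), 0 ≤ VV d G (zz E η) ∧ VV d G (zz E η) ≤ 1 := fun G =>
    ⟨avg_nonneg fun t _ => dev_nonneg _ _, avg_le_of_le zero_le_one fun t _ => dev_le_one _ _⟩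
  have hpt : ∀ G ∈ regularGraphs n d, VV d G (zz E η) ^ 2 ≤
      (if w G ≠ 1 then (1 : ℝ) else 0) + w' G * VV d G (zz E η) ^ 2 := by
    intro G _
    obtain ⟨h0, h1⟩ := hVle G
    have hw0 := hWt.nonneg' G
    by_cases hw : w G ≠ 1
    · rw [if_pos hw]
      have : VV d G (zz E η) ^ 2 ≤ 1 := by nlinarith
      have : 0 ≤ w' G * VV d G (zz E η) ^ 2 := by positivity
      linarith
    · rw [if_neg hw]
      rw [not_not] at hw
      have : w' G = 1 := le_antisymm (hw1' G) (hw ▸ hww G)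
      rw [this]
      linarith
  refine (avg_mono hpt).trans ?_
  rw [avg_add]
  have h1 : avg (regularGraphs n d) (fun G => if w G ≠ 1 then (1 : ℝ) else 0) ≤
      A / (n * η) ^ 2 := by
    refine le_trans (le_of_eq ?_) hP
    unfold prob
    refine avg_congr fun G _ => ?_
    congr
  calc _ ≤ A / (n * η) ^ 2 + A / (n * η) ^ 2 := add_le_add h1 hV
    _ = _ := by ring

end

end Vale.Agent.P156.H490.TD
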