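import Vale.Agent.P156.H490.TDd

/-! FE11 (two defects), assembly: the pointwise inequalities. -/

open Matrix Finset

namespace Vale.Agent.P156.H490.TD

open Vale.Agent.P156.B Vale.Agent.P156.FE

noncomputable section

variable {n d : ℕ}

/-- The size of the resolvent entry at the centre of a star. -/
def gs (z : ℂ) (G : SimpleGraph (Fin n)) (s : St n d) : ℝ := ‖resD (adj G) ∅ z s.1 s.1‖

/-- Isolated defect of a star. -/
def DI (c₂ : ℝ) (z : ℂ) (G : SimpleGraph (Fin n)) (s : St n d) : Prop := c₂ < dev (one G s) z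

/-- Coupling of two stars. -/
def DQ (τ : ℝ) (z : ℂ) (G : SimpleGraph (Fin n)) (s t : St n d) : Prop := τ ^ 2 < Gam G z s t

/-- The diagonal of the resolvent is bounded on a star. -/
def DL (M : ℝ) (z : ℂ) (G : SimpleGraph (Fin n)) (s : St n d) : Prop :=
  ∀ x, (resD (adj G) ∅ z (B.pos s x) (B.pos s x)).im ≤ M

lemma DQ_symm (τ : ℝ) (z : ℂ) (G : SimpleGraph (Fin n)) (s t : St n d) (h : DQ τ z G s t) :
    DQ τ z G t s := by
  unfold DQ at h ⊢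
  rwa [Gam_symm]

lemma DL_of_GB {ω : Om n d (d + 1)} {z : ℂ} {M : ℝ} (h : GB ω z M) (i : Fin (d + 1)) :
    DL M z ω.1 (st ω i) := by
  intro x
  have h1 := h.1 (i, x) (i, x)
  rw [starMat_eq'] at h1
  exact (le_abs_self _).trans ((Complex.abs_im_le_norm _).trans h1)

/-- The first pointwise inequality. -/
theorem pt1 {E η c e err τ M C₁ : ℝ} (hη : 0 < η) (hc : 0 < c) (he : 0 ≤ e)
    (hce : 2 * d * e ≤ c / 4) (hr1 : err ≤ c / 8) (hr2 : err ≤ e / 2) (hC₁ : 4 / c < C₁)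
    (hτ : 0 ≤ τ) {LL : Om n d (d + 1) → Prop}
    (hGB : ∀ ω ∈ ZZs n d (d + 1), LL ω → GB ω (zz E η) M)
    (hDec : ∀ ω ∈ ZZs n d (d + 1), GB ω (zz E η) M → ∀ k : Fin (d + 1),
      (∀ x y, ∀ j ≠ k, ‖starMat ω (zz E η) (k, x) (j, y)‖ ≤ τ) →
      (∀ p r : Fin d, ‖leadMat ω (zz E η) (k, p) (k, r) -
        leadMat (sub1 ω k) (zz E η) (0, p) (0, r)‖ ≤ err) ∧
      (∀ p : Fin d, ∀ j ≠ k, ∀ r : Fin d, ‖leadMat ω (zz E η) (k, p) (j, r)‖ ≤ err))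
    (ω : Om n d (d + 1)) :
    ind (C₁ ≤ gs (zz E η) ω.1 (st ω 0)) ≤
      ind (C₁ ≤ gs (zz E η) ω.1 (st ω 0)) * ind (ω ∉ ZZs n d (d + 1)) +
      ind (ω ∈ ZZs n d (d + 1) ∧ ¬ LL ω) +
      ∑ j : Fin d, ind (C₁ ≤ gs (zz E η) ω.1 (st ω 0) ∧ DL M (zz E η) ω.1 (st ω 0)) *
        ind (DQ τ (zz E η) ω.1 (st ω 0) (st ω j.succ)) +
      ind (ω ∈ ZZs n d (d + 1) ∧ LL ω ∧ NG c e (fun k => (0, k)) (leadMat ω (zz E η))) := by
  have hsum : 0 ≤ ∑ j : Fin d, ind (C₁ ≤ gs (zz E η) ω.1 (st ω 0) ∧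
      DL M (zz E η) ω.1 (st ω 0)) * ind (DQ τ (zz E η) ω.1 (st ω 0) (st ω j.succ)) :=
    Finset.sum_nonneg fun j _ => mul_nonneg (ind_nonneg _) (ind_nonneg _)
  have a1 : 0 ≤ ind (C₁ ≤ gs (zz E η) ω.1 (st ω 0)) * ind (ω ∉ ZZs n d (d + 1)) :=
    mul_nonneg (ind_nonneg _) (ind_nonneg _)
  have a2 : 0 ≤ ind (ω ∈ ZZs n d (d + 1) ∧ ¬ LL ω) := ind_nonneg _
  have a3 : 0 ≤ ind (ω ∈ ZZs n d (d + 1) ∧ LL ω ∧
    NG c e (fun k => (0, k)) (leadMat ω (zz E η))) := ind_nonneg _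
  by_cases hC : C₁ ≤ gs (zz E η) ω.1 (st ω 0)
  · by_cases hZ : ω ∈ ZZs n d (d + 1)
    · by_cases hL : LL ω
      · have hg := hGB ω hZ hL
        by_cases hQ : ∃ j : Fin d, DQ τ (zz E η) ω.1 (st ω 0) (st ω j.succ)
        · obtain ⟨j, hj⟩ := hQ
          have h1 : 1 ≤ ∑ j : Fin d, ind (C₁ ≤ gs (zz E η) ω.1 (st ω 0) ∧
              DL M (zz E η) ω.1 (st ω 0)) * ind (DQ τ (zz E η) ω.1 (st ω 0) (st ω j.succ)) := by
            refine le_trans (le_of_eq ?_) (Finset.single_le_sum (f := fun j : Fin d =>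
              ind (C₁ ≤ gs (zz E η) ω.1 (st ω 0) ∧ DL M (zz E η) ω.1 (st ω 0)) *
                ind (DQ τ (zz E η) ω.1 (st ω 0) (st ω j.succ)))
              (fun j _ => mul_nonneg (ind_nonneg _) (ind_nonneg _)) (Finset.mem_univ j))
            rw [ind_true (show C₁ ≤ gs (zz E η) ω.1 (st ω 0) ∧
              DL M (zz E η) ω.1 (st ω 0) from ⟨hC, DL_of_GB hg 0⟩), ind_true hj, mul_one]
          have := ind_le_one (C₁ ≤ gs (zz E η) ω.1 (st ω 0))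
          linarith
        · push Not at hQ
          have hdec : ∀ x y, ∀ j ≠ (0 : Fin (d + 1)),
              ‖starMat ω (zz E η) (0, x) (j, y)‖ ≤ τ := by
            intro x y j hj
            obtain ⟨i, rfl⟩ := Fin.exists_succ_eq.2 hj
            refine entry_le_of_Gam hτ ?_ x y
            exact not_lt.1 (hQ i)
          have h2 := (hDec ω hZ hg 0 hdec).1
          have h3 := ng_of_large hZ E hη hc he hce hr1 hr2 h2 (lt_of_lt_of_le hC₁ hC)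
          have h4 := ind_true (show ω ∈ ZZs n d (d + 1) ∧ LL ω ∧
            NG c e (fun k => (0, k)) (leadMat ω (zz E η)) from ⟨hZ, hL, h3⟩)
          have := ind_le_one (C₁ ≤ gs (zz E η) ω.1 (st ω 0))
          linarith
      · have h4 := ind_true (show ω ∈ ZZs n d (d + 1) ∧ ¬ LL ω from ⟨hZ, hL⟩)
        have := ind_le_one (C₁ ≤ gs (zz E η) ω.1 (st ω 0))
        linarith
    · rw [ind_true hZ, mul_one] at a1 ⊢
      linarith
  · rw [ind_false hC]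
    linarith [show (0 : ℝ) ≤ 0 * ind (ω ∉ ZZs n d (d + 1)) by rw [zero_mul]]

/-- The second pointwise inequality. -/
theorem pt2 (hd : 3 ≤ d) {z : ℂ} {c e err e₃ τ M c₂ : ℝ} (z0 : Fin d) (hc : 0 < c)
    (hm : c ≤ (mm d z).im) (hr1 : err ≤ c / 8) (hr2 : err ≤ e / 2)
    (he3 : 0 ≤ e₃) (he3' : e₃ < 1) (he3c : e₃ ≤ c / 8) (hτ : 0 ≤ τ)
    {LL : Om n d (d + 1) → Prop}
    (hGB : ∀ ω ∈ ZZs n d (d + 1), LL ω → GB ω z M)
    (hDec : ∀ ω ∈ ZZs n d (d + 1), GB ω z M → ∀ k : Fin (d + 1),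
      (∀ x y, ∀ j ≠ k, ‖starMat ω z (k, x) (j, y)‖ ≤ τ) →
      (∀ p r : Fin d, ‖leadMat ω z (k, p) (k, r) - leadMat (sub1 ω k) z (0, p) (0, r)‖ ≤ err) ∧
      (∀ p : Fin d, ∀ j ≠ k, ∀ r : Fin d, ‖leadMat ω z (k, p) (j, r)‖ ≤ err))
    (hrho : ∀ ω : Om n d (d + 1), ω ∈ WW n d (d + 1) → ∀ k : Fin (d + 1),
      ¬ DI c₂ z ω.1 (st ω k) → FE.rho (sub1 ω k) z ≤ e₃ ^ 2)
    (ω : Om n d (d + 1)) :
    ind (ω ∈ ZZs n d (d + 1) ∧ LL ω ∧ NG c e (fun k => (k.succ, z0)) (leadMat ω z)) ≤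
      ind (Two (DI c₂ z ω.1) (DQ τ z ω.1) (st ω) ∧ ∀ i, DL M z ω.1 (st ω i)) := by
  refine ind_mono ?_
  rintro ⟨hZ, hL, hN⟩
  have hg := hGB ω hZ hL
  refine ⟨?_, fun i => DL_of_GB hg i⟩
  by_contra hT
  obtain ⟨k, hk1, hk2⟩ := exists_untouched (DQ_symm τ z ω.1) hd (st ω) hT
  have hdec : ∀ x y, ∀ j ≠ k.succ, ‖starMat ω z (k.succ, x) (j, y)‖ ≤ τ := by
    intro x y j hj
    exact entry_le_of_Gam hτ (not_lt.1 (hk2 j hj)) x y
  obtain ⟨h1, h2⟩ := hDec ω hZ hg k.succ hdec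
  have h3 := good_of_typical (ω := ω) (z := z) hm hr1 hr2 he3 he3' he3c (k := k.succ) (p := z0)
    (h1 z0 z0) (fun j hj => h2 z0 j hj z0) (hrho ω (B.mem_ZZs.1 hZ).1 _ hk1) hc
  refine hN k ⟨h3.1, fun l hl => h3.2 _ ?_⟩
  intro h
  exact hl (Fin.succ_injective _ h)

end

end Vale.Agent.P156.H490.TD
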