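import Vale.Agent.P156.H490.TDe

/-! FE11 (two defects), assembly: probabilities and constants. -/

open Matrix Finset

namespace Vale.Agent.P156.H490.TD

open Vale.Agent.P156.B Vale.Agent.P156.FE

noncomputable section

variable {n d : ℕ}

lemma markov_ind {α : Type*} {s : Finset α} {Φ : α → ℝ} {t : ℝ} (ht : 0 < t)
    (h : ∀ ω ∈ s, 0 ≤ Φ ω) : avg s (fun ω => ind (t < Φ ω)) ≤ avg s Φ / t := by
  rw [div_eq_inv_mul, ← avg_mul_left]
  refine avg_mono fun ω hω => ?_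
  by_cases h1 : t < Φ ω
  · rw [ind_true h1, ← div_eq_inv_mul, one_le_div ht]
    exact h1.le
  · rw [ind_false h1]
    have := h ω hω
    positivity

lemma Gam_nonneg (G : SimpleGraph (Fin n)) (z : ℂ) (s t : St n d) : 0 ≤ Gam G z s t :=
  Finset.sum_nonneg fun _ _ => Finset.sum_nonneg fun _ _ => sq_nonneg _

/-- The probability of a coupling, given one star. -/
theorem coupling_le (hW : SpecWard d) {G : SimpleGraph (Fin n)} (hG : G ∈ regularGraphs n d)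
    (hn : 0 < n) (E : ℝ) {η τ M : ℝ} (hη : 0 < η) (hτ : 0 < τ) {s : St n d}
    (hs : DL M (zz E η) G s) :
    avg (stars d G) (fun t => ind (DQ τ (zz E η) G s t)) ≤
      ((d : ℝ) + 1) ^ 2 * M / (n * η * τ ^ 2) := by
  refine (markov_ind (Φ := fun t => Gam G (zz E η) s t) (by positivity)
    fun t _ => Gam_nonneg _ _ _ _).trans ?_
  rw [hW n G hG hn E η hη s]
  have h1 : ∑ x : Option (Fin d), (resD (adj G) ∅ (zz E η) (B.pos s x) (B.pos s x)).im ≤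
      ((d : ℝ) + 1) * M := by
    refine (Finset.sum_le_sum fun x _ => hs x).trans (le_of_eq ?_)
    rw [Finset.sum_const, Finset.card_univ, Fintype.card_option, Fintype.card_fin, nsmul_eq_mul]
    push_cast
    ring
  have hn' : (0 : ℝ) < n := by exact_mod_cast hn
  calc _ ≤ ((d : ℝ) + 1) / (n * η) * (((d : ℝ) + 1) * M) / τ ^ 2 := by gcongr
    _ = _ := by field_simp

/-- One inequality for the probability of a large entry. -/
theorem prob_step (hd : 3 ≤ d) (hn : 0 < n) {E η c e err e₃ τ M C₁ κ p T₁ c₂ : ℝ} (hη : 0 < η)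
    (hc : 0 < c) (he : 0 ≤ e)
    (hce : 2 * d * e ≤ c / 4) (hr1 : err ≤ c / 8) (hr2 : err ≤ e / 2) (hC₁ : 4 / c < C₁)
    (hτ : 0 ≤ τ) (hκ : 0 ≤ κ) (hm : c ≤ (mm d (zz E η)).im)
    (he3 : 0 ≤ e₃) (he3' : e₃ < 1) (he3c : e₃ ≤ c / 8) {z' : ℂ}
    {LP : Matrix (Fin (d + 1) × Fin d) (Fin (d + 1) × Fin d) ℂ → Prop}
    (hLP : ∀ (σ : Equiv.Perm (Fin (d + 1) × Fin d)) R, LP (R.submatrix σ σ) ↔ LP R)
    (hGB : ∀ ω ∈ ZZs n d (d + 1), LP (leadMat ω z') → GB ω (zz E η) M)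
    (hDec : ∀ ω ∈ ZZs n d (d + 1), GB ω (zz E η) M → ∀ k : Fin (d + 1),
      (∀ x y, ∀ j ≠ k, ‖starMat ω (zz E η) (k, x) (j, y)‖ ≤ τ) →
      (∀ p r : Fin d, ‖leadMat ω (zz E η) (k, p) (k, r) -
        leadMat (sub1 ω k) (zz E η) (0, p) (0, r)‖ ≤ err) ∧
      (∀ p : Fin d, ∀ j ≠ k, ∀ r : Fin d, ‖leadMat ω (zz E η) (k, p) (j, r)‖ ≤ err))
    (hrho : ∀ ω : Om n d (d + 1), ω ∈ WW n d (d + 1) → ∀ k : Fin (d + 1),
      ¬ DI c₂ (zz E η) ω.1 (st ω k) → FE.rho (sub1 ω k) (zz E η) ≤ e₃ ^ 2)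
    (hQ : ∀ G ∈ regularGraphs n d, ∀ s ∈ stars d G, DL M (zz E η) G s →
      avg (stars d G) (fun t => ind (DQ τ (zz E η) G s t)) ≤ κ)
    (hI : avg (regularGraphs n d) (fun G => avg (stars d G)
      (fun t => ind (DI c₂ (zz E η) G t)) ^ 2) ≤ p)
    (hT : avg (WW n d (d + 1)) (fun ω => ind (ω ∈ ZZs n d (d + 1) ∧ ¬ LP (leadMat ω z'))) ≤ T₁) :
    prob (WW n d 1) (fun ω => C₁ ≤ ‖resD (adj ω.1) ∅ (zz E η) (ω.2.1 0) (ω.2.1 0)‖) ≤
      (((d + 1 : ℕ) : ℝ) ^ 2 * (d + 1) ^ 2 / n + d * κ) *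
        prob (WW n d 1) (fun ω => C₁ ≤ ‖resD (adj ω.1) ∅ (zz E η) (ω.2.1 0) (ω.2.1 0)‖) +
      T₁ + (((d + 1 : ℕ) : ℝ) ^ 2 * p + ((d + 1 : ℕ) : ℝ) ^ 3 * (κ ^ 2 + p) +
        ((d + 1 : ℕ) : ℝ) ^ 4 * κ ^ 2) := by
  have hn' : (0 : ℝ) < n := by exact_mod_cast hn
  have hP : prob (WW n d 1) (fun ω => C₁ ≤ ‖resD (adj ω.1) ∅ (zz E η) (ω.2.1 0) (ω.2.1 0)‖) =
      avg (WW n d (d + 1)) (fun ω => ind (C₁ ≤ gs (zz E η) ω.1 (st ω 0))) := by
    rw [prob_eq, avg_WW_one hn (0 : Fin (d + 1)) (fun G s => ind (C₁ ≤ gs (zz E η) G s))]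
    exact avg_WW_one hn (0 : Fin 1) (fun G s => ind (C₁ ≤ gs (zz E η) G s))
  rw [hP]
  set P := avg (WW n d (d + 1)) (fun ω => ind (C₁ ≤ gs (zz E η) ω.1 (st ω 0))) with hPdef
  have hmem : ∀ ω ∈ WW n d (d + 1), ω.1 ∈ regularGraphs n d := fun ω hω =>
    B.mem_regularGraphs.2 (B.mem_WW.1 hω).1
  have hst : ∀ ω ∈ WW n d (d + 1), ∀ i, st ω i ∈ stars d ω.1 := fun ω hω i =>
    mem_mstars.1 (B.mem_WW.1 hω).2 i
  have h1 := avg_mono (s := WW n d (d + 1)) fun ω _ =>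
    pt1 hη hc he hce hr1 hr2 hC₁ hτ (LL := fun ω => LP (leadMat ω z')) hGB hDec ω
  rw [avg_add, avg_add, avg_add, avg_sum] at h1
  -- collisions
  have h2 : avg (WW n d (d + 1)) (fun ω => ind (C₁ ≤ gs (zz E η) ω.1 (st ω 0)) *
      ind (ω ∉ ZZs n d (d + 1))) ≤ ((d + 1 : ℕ) : ℝ) ^ 2 * (d + 1) ^ 2 / n * P := by
    refine avg_bad_le hn (0 : Fin (d + 1)) (f := fun ω => ind (C₁ ≤ gs (zz E η) ω.1 (st ω 0)))
      ?_ fun ω _ => ind_nonneg _
    intro i hi ω _ t _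
    rw [st_upd_ne _ hi.symm, upd_fst]
  -- couplings with star 0
  have h3 : ∀ j : Fin d, avg (WW n d (d + 1)) (fun ω =>
      ind (C₁ ≤ gs (zz E η) ω.1 (st ω 0) ∧ DL M (zz E η) ω.1 (st ω 0)) *
        ind (DQ τ (zz E η) ω.1 (st ω 0) (st ω j.succ))) ≤ κ * P := by
    intro j
    have hj : (0 : Fin (d + 1)) ≠ j.succ := (Fin.succ_ne_zero j).symm
    refine (avg_mul_le j.succ (κ := κ) ?_ (fun ω _ => ind_nonneg _) ?_).trans ?_
    · intro ω _ t _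
      rw [st_upd_ne _ hj, upd_fst]
    · intro ω hω h0
      have hL : DL M (zz E η) ω.1 (st ω 0) := by
        by_contra h
        exact h0 (ind_false fun h' => h h'.2)
      refine le_trans (le_of_eq ?_) (hQ ω.1 (hmem ω hω) (st ω 0) (hst ω hω 0) hL)
      refine avg_congr fun t _ => ?_
      rw [st_upd_ne _ hj, upd_fst, st_upd_self]
    · exact mul_le_mul_of_nonneg_left (avg_mono fun ω _ => ind_mono fun h => h.1) hκ
  have h3' := Finset.sum_le_sum (s := (univ : Finset (Fin d))) fun j _ => h3 j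
  rw [Finset.sum_const, Finset.card_univ, Fintype.card_fin, nsmul_eq_mul] at h3'
  -- the exchange
  let z0 : Fin d := ⟨0, by omega⟩
  have h4 : avg (WW n d (d + 1)) (fun ω => ind (ω ∈ ZZs n d (d + 1) ∧ LP (leadMat ω z') ∧
      NG c e (fun k => (0, k)) (leadMat ω (zz E η)))) =
      avg (WW n d (d + 1)) (fun ω => ind (ω ∈ ZZs n d (d + 1) ∧ LP (leadMat ω z') ∧
        NG c e (fun k => (k.succ, z0)) (leadMat ω (zz E η)))) := by
    refine exchange (sig z0) (zz E η) z' (fun R R' => LP R' ∧ NG c e (fun k => (0, k)) R)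
      (fun R R' => LP R' ∧ NG c e (fun k => (k.succ, z0)) R) fun R R' => ?_
    rw [hLP]
    exact Iff.rfl
  have h5 := avg_mono (s := WW n d (d + 1)) fun ω _ =>
    pt2 hd z0 hc hm hr1 hr2 he3 he3' he3c hτ (LL := fun ω => LP (leadMat ω z')) hGB hDec hrho ω
  have h6 := avg_two_le (K := d + 1) (I := fun G s => DI c₂ (zz E η) G s)
    (Q := fun G s t => DQ τ (zz E η) G s t) (L := fun G s => DL M (zz E η) G s) hn hκ hQ hI
  have h7 := h5.trans h6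
  rw [← h4] at h7
  have h8 : (((d + 1 : ℕ) : ℝ) ^ 2 * (d + 1) ^ 2 / n + d * κ) * P =
    ((d + 1 : ℕ) : ℝ) ^ 2 * (d + 1) ^ 2 / n * P + d * (κ * P) := by ring
  rw [h8]
  linarith

end

end Vale.Agent.P156.H490.TD
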