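import Vale.Agent.P156.H490.TDf

/-! FE11 (two defects): `SpecTD` from the specifications of the other blocks. -/

open Matrix Finset

namespace Vale.Agent.P156.H490.TD

open Vale.Agent.P156.B Vale.Agent.P156.FE

noncomputable section

/-- The scalar bookkeeping. -/
theorem scal {N Cb CD err D δ Ck : ℝ} {cD : ℕ} (hN1 : 1 ≤ N) (hCb : 1 ≤ Cb) (hCD : 1 ≤ CD)
    (herr : 0 < err) (hD : 0 < D) (hδ : δ = 1 / (4 * (1 + 2 * cD)))
    (hCk : Ck = (D + 1) ^ 2 * Cb * (CD * Cb ^ cD / err) ^ 2) (hNk : (4 * D * Ck) ^ 2 ≤ N) :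
    1 ≤ N ^ δ ∧ N ^ δ ≤ N ∧ ∀ M τ κ : ℝ, M = Cb * N ^ δ → τ = err / (CD * M ^ cD) →
      κ = (D + 1) ^ 2 * M / (N * τ ^ 2) →
      0 < κ ∧ κ ^ 2 ≤ Ck ^ 2 / (N * N ^ δ) ∧ D * κ ≤ 1 / 4 := by
  have hcD : (0 : ℝ) ≤ cD := Nat.cast_nonneg _
  have hδ0 : 0 < δ := by rw [hδ]; positivity
  have hδ4 : δ ≤ 1 / 4 := by
    rw [hδ]
    apply one_div_le_one_div_of_le (by norm_num)
    linarith
  have hCk0 : 0 < Ck := by rw [hCk]; positivity
  have hN0 : 0 < N := by linarith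
  have hX1 : 1 ≤ N ^ δ := Real.one_le_rpow hN1 hδ0.le
  have hXY : N ^ δ ≤ N ^ (1 / 4 : ℝ) := Real.rpow_le_rpow_of_exponent_le hN1 hδ4
  have hXc : (N ^ δ) ^ (1 + 2 * cD) = N ^ (1 / 4 : ℝ) := by
    rw [← Real.rpow_natCast, ← Real.rpow_mul hN0.le]
    congr 1
    rw [hδ]
    push_cast
    field_simp
  have hY4 : (N ^ (1 / 4 : ℝ)) ^ 4 = N := by
    rw [← Real.rpow_natCast, ← Real.rpow_mul hN0.le]
    norm_num
  generalize N ^ δ = X at hX1 hXY hXc ⊢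
  generalize N ^ (1 / 4 : ℝ) = Y at hXY hXc hY4
  have hX0 : 0 < X := by linarith
  have hY1 : 1 ≤ Y := hX1.trans hXY
  have hY0 : 0 < Y := by linarith
  refine ⟨hX1, ?_, ?_⟩
  · calc X ≤ Y := hXY
      _ = Y ^ 1 := (pow_one Y).symm
      _ ≤ Y ^ 4 := pow_le_pow_right₀ hY1 (by norm_num)
      _ = N := hY4
  · intro M τ κ hM hτ hκ
    have hM0 : 0 < M := by rw [hM]; positivity
    have hτ0 : 0 < τ := by rw [hτ]; positivity
    have hκe : κ = Ck / Y ^ 3 := by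
      have h1 : κ = Ck * X ^ (1 + 2 * cD) / N := by
        rw [hκ, hτ, hCk, hM]
        rw [pow_add, pow_mul, pow_one, mul_pow Cb X cD]
        field_simp
        ring
      rw [h1, hXc, ← hY4]
      field_simp
    refine ⟨by rw [hκ]; positivity, ?_, ?_⟩
    · rw [hκe, div_pow, ← hY4]
      apply div_le_div_of_nonneg_left (by positivity) (by positivity)
      calc Y ^ 4 * X ≤ Y ^ 4 * Y := by gcongr
        _ = Y ^ 5 := by ring
        _ ≤ Y ^ 6 := pow_le_pow_right₀ hY1 (by norm_num)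
        _ = (Y ^ 3) ^ 2 := by ring
    · have h1 : 4 * D * Ck ≤ Y ^ 2 := by
        have : (4 * D * Ck) ^ 2 ≤ (Y ^ 2) ^ 2 := by
          calc _ ≤ N := hNk
            _ = _ := by rw [← hY4]; ring
        exact (sq_le_sq₀ (by positivity) (by positivity)).1 this
      rw [hκe, mul_div_assoc', div_le_iff₀ (by positivity)]
      have h2 : Y ^ 2 ≤ Y ^ 3 := pow_le_pow_right₀ hY1 (by norm_num)
      nlinarith

end

end Vale.Agent.P156.H490.TD
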